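import Mathlib

/-!
Definitions for P368: QAC circuits on `N` qubits.
Computational basis states are bit strings `Fin N → Bool`; operators are complex matrices
indexed by them (row index = output string, column index = input string).
-/

namespace Vale.Agent.P368

/-- A gate: an arbitrary one-qubit unitary on qubit `i`, or a generalized Toffoli gate with a
nonempty set `S` of control qubits and a target qubit `b` outside `S`. -/
inductive Gate (N : ℕ) : Type
  | oneQubit (i : Fin N) (u : Matrix.unitaryGroup Bool ℂ)
  | toffoli (S : Finset (Fin N)) (b : Fin N) (hS : S.Nonempty) (hb : b ∉ S)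

/-- The set of qubits a gate acts on. -/
def Gate.support {N : ℕ} : Gate N → Finset (Fin N)
  | .oneQubit i _ => {i}
  | .toffoli S b _ _ => insert b S

/-- The matrix of a gate on all `N` qubits. -/
noncomputable def Gate.matrix {N : ℕ} : Gate N → Matrix (Fin N → Bool) (Fin N → Bool) ℂ
  | .oneQubit i u => Matrix.of fun z z' =>
      if ∀ j, j ≠ i → z j = z' j then u.1 (z i) (z' i) else 0
  | .toffoli S b _ _ => Matrix.of fun z z' =>
      if z = Function.update z' b (xor (z' b) (decide (∀ i ∈ S, z' i = true))) then 1 else 0

/-- A layer: gates with pairwise disjoint supports. -/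
structure Layer (N : ℕ) : Type where
  gates : List (Gate N)
  disjoint : gates.Pairwise fun g g' => Disjoint g.support g'.support

/-- The matrix of a layer. -/
noncomputable def Layer.matrix {N : ℕ} (L : Layer N) : Matrix (Fin N → Bool) (Fin N → Bool) ℂ :=
  (L.gates.map Gate.matrix).prod

/-- The matrix of a circuit, given as the list of its layers in the order they are applied. -/
noncomputable def circuitMatrix {N : ℕ} (C : List (Layer N)) :
    Matrix (Fin N → Bool) (Fin N → Bool) ℂ :=
  (C.map Layer.matrix).reverse.prod

/-- The initial basis state: `x` on the first `n` qubits and `0` on the others. -/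
def inputString {n : ℕ} (N : ℕ) (x : Fin n → Bool) : Fin N → Bool :=
  fun i => if h : i.val < n then x ⟨i.val, h⟩ else false

/-- The probability that measuring qubit `o` after running `C` on input `x` gives `c`. -/
noncomputable def outProb {n N : ℕ} (C : List (Layer N)) (o : Fin N) (x : Fin n → Bool)
    (c : Bool) : ℝ :=
  ∑ z : Fin N → Bool, if z o = c then ‖circuitMatrix C z (inputString N x)‖ ^ 2 else 0

/-- The parity of a bit string. -/
def parity {n : ℕ} (x : Fin n → Bool) : Bool :=
  decide (Odd (Finset.univ.filter fun i => x i = true).card)

end Vale.Agent.P368
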