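import Vale.Agent.P368.Step

/-!
Product operators on `N` qubits, gates, layers and circuits, and the localization theorem.
-/

namespace Vale.Agent.P368

open Finset
open scoped Matrix.Norms.L2Operator

/-- One-qubit matrices. -/
abbrev M2 : Type := Matrix Bool Bool ℂ

/-- Matrices on `N` qubits. -/
abbrev Mat (N : ℕ) : Type := Matrix (Fin N → Bool) (Fin N → Bool) ℂ

variable {N : ℕ}

/-- Tensor product of one-qubit matrices. -/
def pm (a : Fin N → M2) : Mat N := Matrix.of fun z z' => ∏ i, a i (z i) (z' i)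

lemma pm_apply (a : Fin N → M2) (z z' : Fin N → Bool) : pm a z z' = ∏ i, a i (z i) (z' i) := rfl

lemma pm_mul (a b : Fin N → M2) : pm a * pm b = pm fun i => a i * b i := by
  ext z z''
  simp only [Matrix.mul_apply, pm_apply]
  rw [Finset.prod_univ_sum, Fintype.piFinset_univ]
  refine sum_congr rfl fun z' _ => ?_
  rw [prod_mul_distrib]

lemma pm_star (a : Fin N → M2) : star (pm a) = pm fun i => star (a i) := by
  ext z z'
  simp [Matrix.star_apply, pm_apply]

lemma pm_one : pm (fun _ : Fin N => 1) = 1 := by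
  ext z z'
  rw [pm_apply, Matrix.one_apply]
  split_ifs with h
  · subst h; simp
  · obtain ⟨i, hi⟩ := Function.ne_iff.1 h
    exact prod_eq_zero (mem_univ i) (Matrix.one_apply_ne hi)

lemma pm_congr {a b : Fin N → M2} (h : ∀ i, a i = b i) : pm a = pm b := by rw [funext h]

lemma pm_eq_zero {a : Fin N → M2} {i : Fin N} (h : a i = 0) : pm a = 0 := by
  ext z z'
  rw [pm_apply]
  exact prod_eq_zero (mem_univ i) (by rw [h]; rfl)

lemma pm_add (a b : Fin N → M2) :
    pm (fun i => a i + b i) = ∑ K : Finset (Fin N), pm fun i => if i ∈ K then a i else b i := by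
  ext z z'
  rw [Matrix.sum_apply]
  simp only [pm_apply, Matrix.add_apply]
  rw [Fintype.prod_add]
  refine sum_congr rfl fun K _ => ?_
  rw [← Finset.prod_mul_prod_compl K]
  congr 1
  · exact prod_congr rfl fun i hi => by rw [if_pos hi]
  · exact prod_congr rfl fun i hi => by rw [if_neg (mem_compl.1 hi)]

/-- Sitewise projections. -/
def IsPF (n : Fin N → M2) : Prop := ∀ i, star (n i) = n i ∧ n i * n i = n i

lemma IsPF.compl {n : Fin N → M2} (hn : IsPF n) : IsPF fun i => 1 - n i := fun i =>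
  ⟨by rw [star_sub, star_one, (hn i).1], by
    rw [sub_mul, one_mul, mul_sub, mul_one, (hn i).2, sub_self, sub_zero]⟩

lemma IsPF.ite {n : Fin N → M2} (hn : IsPF n) (J : Finset (Fin N)) :
    IsPF fun i => if i ∈ J then n i else 1 := fun i => by
  by_cases h : i ∈ J
  · simpa [h] using hn i
  · simp [h]

lemma isPF_one : IsPF fun _ : Fin N => 1 := fun i => by simp

lemma IsPF.norm_pm_le {n : Fin N → M2} (hn : IsPF n) : ‖pm n‖ ≤ 1 :=
  norm_le_one_of_proj (by rw [pm_star]; exact pm_congr fun i => (hn i).1)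
    (by rw [pm_mul]; exact pm_congr fun i => (hn i).2)

/-- The resolution of the identity attached to sitewise projections. -/
def Ep (n : Fin N → M2) (K : Finset (Fin N)) : Mat N := pm fun i => if i ∈ K then n i else 1 - n i

lemma IsPF.res {n : Fin N → M2} (hn : IsPF n) : Res (Ep n) where
  star_eq K := by
    rw [Ep, pm_star]
    refine pm_congr fun i => ?_
    split_ifs
    · exact (hn i).1
    · exact (hn.compl i).1
  mul_self K := by
    rw [Ep, pm_mul]
    refine pm_congr fun i => ?_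
    split_ifs
    · exact (hn i).2
    · exact (hn.compl i).2
  mul_ne K K' h := by
    rw [Ep, Ep, pm_mul]
    obtain ⟨i, hi⟩ : ∃ i, ¬ (i ∈ K ↔ i ∈ K') := by
      by_contra hc
      push Not at hc
      exact h (Finset.ext hc)
    refine pm_eq_zero (i := i) ?_
    by_cases h1 : i ∈ K <;> by_cases h2 : i ∈ K'
    · exact absurd (iff_of_true h1 h2) hi
    · simp only [h1, h2, if_true, if_false]; rw [mul_sub, mul_one, (hn i).2, sub_self]
    · simp only [h1, h2, if_true, if_false]; rw [sub_mul, one_mul, (hn i).2, sub_self]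
    · exact absurd (iff_of_false h1 h2) hi
  sum_eq := by
    unfold Ep
    rw [← pm_add, ← pm_one]
    exact pm_congr fun i => by simp

lemma sub_Ep (n : Fin N → M2) (J : Finset (Fin N)) :
    sub (Ep n) J = pm fun i => if i ∈ J then n i else 1 := by
  have h1 : (pm fun i => if i ∈ J then n i else 1)
      = pm fun i => n i + (if i ∈ J then 0 else 1 - n i) :=
    pm_congr fun i => by split_ifs <;> simp
  rw [h1, pm_add, sub, Op, OpC]
  refine sum_congr rfl fun K _ => ?_
  by_cases h : J ⊆ K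
  · simp only [h, if_true, Complex.ofReal_one, one_smul, Ep]
    refine pm_congr fun i => ?_
    by_cases h1 : i ∈ K
    · simp [h1]
    · have : i ∉ J := fun h2 => h1 (h h2)
      simp [h1, this]
  · obtain ⟨i, hi, hi'⟩ := not_subset.1 h
    simp only [h, if_false, Complex.ofReal_zero, zero_smul]
    exact (pm_eq_zero (i := i) (by simp [hi, hi'])).symm

lemma op_mul_op_eq_zero {E : Finset (Fin N) → Mat N} {F G : Finset (Fin N) → ℝ} {X : Mat N}
    (h : ∀ K K', F K ≠ 0 → G K' ≠ 0 → E K * X * E K' = 0) : Op E F * X * Op E G = 0 := by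
  unfold Op OpC
  rw [sum_mul, sum_mul_sum]
  refine sum_eq_zero fun K _ => sum_eq_zero fun K' _ => ?_
  by_cases h1 : F K = 0
  · simp [h1]
  by_cases h2 : G K' = 0
  · simp [h2]
  rw [smul_mul_assoc, smul_mul_smul_comm, h K K' h1 h2, smul_zero]

lemma exact_local {n β : Fin N → M2} (hn : IsPF n) (J : Finset (Fin N))
    (hβ : ∀ i, i ∉ J → β i = 1) {a b : ℝ} (hab : a + J.card < b) :
    up (Ep n) b * pm β * low (Ep n) a = 0 := by
  refine op_mul_op_eq_zero fun K K' h1 h2 => ?_
  have h3 : b ≤ K.card := by by_contra hc; exact h1 (if_neg hc)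
  have h4 : (K'.card : ℝ) ≤ a := by by_contra hc; exact h2 (if_neg hc)
  have h5 : (K' ∪ J).card < K.card := by
    have h6 : ((K' ∪ J).card : ℝ) ≤ K'.card + J.card := by exact_mod_cast card_union_le K' J
    have : ((K' ∪ J).card : ℝ) < K.card := by linarith
    exact_mod_cast this
  obtain ⟨i, hi, hi'⟩ := exists_mem_notMem_of_card_lt_card h5
  rw [mem_union, not_or] at hi'
  rw [Ep, Ep, pm_mul, pm_mul]
  refine pm_eq_zero (i := i) ?_
  simp only [hi, hi'.1, if_true, if_false, hβ i hi'.2, mul_one]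
  rw [mul_sub, mul_one, (hn i).2, sub_self]

/-- Abstract gates: products of one-qubit unitaries, or reflections in product projections. -/
def IsGate (S : Finset (Fin N)) (G : Mat N) : Prop :=
  (∃ u : Fin N → M2, (∀ i, star (u i) * u i = 1 ∧ u i * star (u i) = 1) ∧
    (∀ i, i ∉ S → u i = 1) ∧ G = pm u) ∨
  (∃ q : Fin N → M2, IsPF q ∧ (∀ i, i ∉ S → q i = 1) ∧ G = 1 - (2 : ℂ) • pm q)

lemma pm_commute {a b : Fin N → M2} {S : Finset (Fin N)} (ha : ∀ i, i ∉ S → a i = 1)
    (hb : ∀ i ∈ S, b i = 1) : Commute (pm a) (pm b) := by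
  show pm a * pm b = pm b * pm a
  rw [pm_mul, pm_mul]
  refine pm_congr fun i => ?_
  by_cases h : i ∈ S
  · rw [hb i h, mul_one, one_mul]
  · rw [ha i h, mul_one, one_mul]

lemma IsGate.commute_pm {S : Finset (Fin N)} {G : Mat N} (hG : IsGate S G) {β : Fin N → M2}
    (hβ : ∀ i ∈ S, β i = 1) : Commute G (pm β) := by
  rcases hG with ⟨u, -, h, rfl⟩ | ⟨q, -, h, rfl⟩
  · exact pm_commute h hβ
  · exact (Commute.one_left _).sub_left ((pm_commute h hβ).smul_left _)

lemma IsGate.commute {S S' : Finset (Fin N)} {G G' : Mat N} (hG : IsGate S G) (hG' : IsGate S' G')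
    (h : Disjoint S S') : Commute G G' := by
  rcases hG' with ⟨u, -, h', rfl⟩ | ⟨q, -, h', rfl⟩
  · exact hG.commute_pm fun i hi => h' i (Finset.disjoint_left.1 h hi)
  · exact (Commute.one_right _).sub_right
      ((hG.commute_pm fun i hi => h' i (Finset.disjoint_left.1 h hi)).smul_right _)

lemma star_refl {q : Fin N → M2} (hq : IsPF q) :
    star (1 - (2 : ℂ) • pm q) = 1 - (2 : ℂ) • pm q := by
  rw [star_sub, star_one, star_smul, pm_star, pm_congr fun i => (hq i).1]
  simp

lemma IsGate.star {S : Finset (Fin N)} {G : Mat N} (hG : IsGate S G) : IsGate S (star G) := by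
  rcases hG with ⟨u, h1, h, rfl⟩ | ⟨q, h1, h, rfl⟩
  · refine Or.inl ⟨fun i => Star.star (u i), fun i => ?_, fun i hi => ?_, pm_star u⟩
    · simp only [star_star]; exact ⟨(h1 i).2, (h1 i).1⟩
    · simp only [h i hi, star_one]
  · exact Or.inr ⟨q, h1, h, star_refl h1⟩

lemma IsGate.mul_star {S : Finset (Fin N)} {G : Mat N} (hG : IsGate S G) : G * Star.star G = 1 := by
  rcases hG with ⟨u, h1, h, rfl⟩ | ⟨q, h1, h, rfl⟩
  · rw [pm_star, pm_mul, ← pm_one]; exact pm_congr fun i => (h1 i).2
  · have h2 : pm q * pm q = pm q := by rw [pm_mul]; exact pm_congr fun i => (h1 i).2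
    rw [star_refl h1, sub_mul, mul_sub, mul_sub, smul_mul_smul_comm, h2]
    simp only [mul_one, one_mul]
    module

/-- Abstract layers. -/
def IsLayer (L : Mat N) : Prop :=
  ∃ l : List (Finset (Fin N) × Mat N), (∀ g ∈ l, IsGate g.1 g.2) ∧
    l.Pairwise (fun g g' => Disjoint g.1 g'.1) ∧ L = (l.map Prod.snd).prod

lemma isLayer_one : IsLayer (1 : Mat N) := ⟨[], by simp, by simp, by simp⟩

lemma IsGate.isLayer {S : Finset (Fin N)} {G : Mat N} (hG : IsGate S G) : IsLayer G :=
  ⟨[(S, G)], by simpa using hG, by simp, by simp⟩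

lemma IsLayer.star {L : Mat N} (hL : IsLayer L) : IsLayer (star L) := by
  obtain ⟨l, h1, h2, rfl⟩ := hL
  refine ⟨(l.map fun g => (g.1, Star.star g.2)).reverse, ?_, ?_, ?_⟩
  · intro g hg
    obtain ⟨g', hg', rfl⟩ := List.mem_map.1 (List.mem_reverse.1 hg)
    exact (h1 g' hg').star
  · rw [List.pairwise_reverse, List.pairwise_map]
    exact h2.imp fun h => h.symm
  · rw [Matrix.star_eq_conjTranspose, Matrix.conjTranspose_list_prod, List.map_reverse,
      List.map_map, List.map_map]
    rfl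

lemma IsLayer.mul_star {L : Mat N} (hL : IsLayer L) : L * Star.star L = 1 := by
  obtain ⟨l, h1, h2, rfl⟩ := hL
  clear h2
  induction l with
  | nil => simp
  | cons g l ih =>
    rw [List.map_cons, List.prod_cons, star_mul, mul_assoc, ← mul_assoc (List.prod _),
      ih fun g' hg' => h1 g' (List.mem_cons_of_mem _ hg'), one_mul]
    exact (h1 g List.mem_cons_self).mul_star

/-- Conjugating a product projection supported on `J` by a layer. -/
lemma layer_expand (Φ : Mat N →ₗ[ℂ] Mat N) {ε : ℝ} (hε : 0 ≤ ε)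
    (hΦ : ∀ α β γ, IsPF α → IsPF β → IsPF γ → ‖Φ (pm α * pm β * pm γ)‖ ≤ ε)
    (l : List (Finset (Fin N) × Mat N)) (h1 : ∀ g ∈ l, IsGate g.1 g.2)
    (h2 : l.Pairwise (fun g g' => Disjoint g.1 g'.1)) :
    ∀ (α β γ : Fin N → M2) (J : Finset (Fin N)), IsPF α → IsPF β → IsPF γ →
      (∀ g ∈ l, ∀ i ∈ g.1, α i = 1) → (∀ g ∈ l, ∀ i ∈ g.1, γ i = 1) →
      (∀ g ∈ l, ∀ i ∈ g.1, i ∉ J → β i = 1) →
      ‖Φ (pm α * ((l.map Prod.snd).prod * pm β * star (l.map Prod.snd).prod) * pm γ)‖
        ≤ 9 ^ J.card * ε := by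
  induction l with
  | nil =>
    intro α β γ J hα hβ hγ _ _ _
    simp only [List.map_nil, List.prod_nil, star_one, one_mul, mul_one]
    exact (hΦ α β γ hα hβ hγ).trans (le_mul_of_one_le_left hε (one_le_pow₀ (by norm_num)))
  | cons g l ih =>
    intro α β γ J hα hβ hγ hα1 hγ1 hβ1
    have hG := h1 g List.mem_cons_self
    have h1' : ∀ g' ∈ l, IsGate g'.1 g'.2 := fun g' hg' => h1 g' (List.mem_cons_of_mem _ hg')
    rw [List.pairwise_cons] at h2
    have ih' := ih h1' h2.2
    have hcomm : Commute g.2 (l.map Prod.snd).prod := by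
      refine Commute.list_prod_right _ _ fun x hx => ?_
      obtain ⟨g', hg', rfl⟩ := List.mem_map.1 hx
      exact hG.commute (h1' g' hg') (h2.1 g' hg')
    rw [List.map_cons, List.prod_cons]
    set L := (l.map Prod.snd).prod with hL
    have hswap : g.2 * L * pm β * star (g.2 * L) = L * (g.2 * pm β * star g.2) * star L := by
      rw [hcomm.eq, star_mul]
      simp only [mul_assoc]
    have hα' : ∀ g' ∈ l, ∀ i ∈ g'.1, α i = 1 := fun g' hg' => hα1 g' (List.mem_cons_of_mem _ hg')
    have hγ' : ∀ g' ∈ l, ∀ i ∈ g'.1, γ i = 1 := fun g' hg' => hγ1 g' (List.mem_cons_of_mem _ hg')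
    have hβ' : ∀ g' ∈ l, ∀ i ∈ g'.1, i ∉ J → β i = 1 :=
      fun g' hg' => hβ1 g' (List.mem_cons_of_mem _ hg')
    by_cases hJ : ∀ i ∈ g.1, i ∉ J
    · have hc := hG.commute_pm (β := β) fun i hi => hβ1 g List.mem_cons_self i hi (hJ i hi)
      rw [hswap, hc.eq, mul_assoc (pm β), hG.mul_star, mul_one]
      exact ih' α β γ J hα hβ hγ hα' hγ' hβ'
    push Not at hJ
    obtain ⟨i0, hi0, hi0J⟩ := hJ
    rcases hG with ⟨u, hu, hu1, hg⟩ | ⟨q, hq, hq1, hg⟩
    · rw [hswap, hg, pm_star, pm_mul, pm_mul]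
      refine ih' α _ γ J hα (fun i => ⟨?_, ?_⟩) hγ hα' hγ' fun g' hg' i hi hiJ => ?_
      · simp only [star_mul, star_star, (hβ i).1, mul_assoc]
      · calc u i * β i * star (u i) * (u i * β i * star (u i))
            = u i * (β i * (star (u i) * u i) * β i) * star (u i) := by simp only [mul_assoc]
          _ = _ := by rw [(hu i).1, mul_one, (hβ i).2]
      · rw [hβ' g' hg' i hi hiJ, mul_one, (hu i).2]
    · have hq' : ∀ g' ∈ l, ∀ i ∈ g'.1, q i = 1 := fun g' hg' i hi =>
        hq1 i (Finset.disjoint_right.1 (h2.1 g' hg') hi)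
      have hαq : IsPF fun i => α i * q i := fun i => by
        by_cases h : i ∈ g.1
        · simpa [hα1 g List.mem_cons_self i h] using hq i
        · simpa [hq1 i h] using hα i
      have hqγ : IsPF fun i => q i * γ i := fun i => by
        by_cases h : i ∈ g.1
        · simpa [hγ1 g List.mem_cons_self i h] using hq i
        · simpa [hq1 i h] using hγ i
      have hαq' : ∀ g' ∈ l, ∀ i ∈ g'.1, α i * q i = 1 := fun g' hg' i hi => by
        rw [hα' g' hg' i hi, hq' g' hg' i hi, mul_one]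
      have hqγ' : ∀ g' ∈ l, ∀ i ∈ g'.1, q i * γ i = 1 := fun g' hg' i hi => by
        rw [hγ' g' hg' i hi, hq' g' hg' i hi, mul_one]
      have hβ'' : ∀ g' ∈ l, ∀ i ∈ g'.1, i ∉ J.erase i0 → β i = 1 := fun g' hg' i hi hiJ => by
        refine hβ' g' hg' i hi fun h => hiJ (mem_erase.2 ⟨?_, h⟩)
        rintro rfl
        exact Finset.disjoint_left.1 (h2.1 g' hg') hi0 hi
      have e1 := ih' α β γ _ hα hβ hγ hα' hγ' hβ''
      have e2 := ih' _ β γ _ hαq hβ hγ hαq' hγ' hβ''
      have e3 := ih' α β _ _ hα hβ hqγ hα' hqγ' hβ''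
      have e4 := ih' _ β _ _ hαq hβ hqγ hαq' hqγ' hβ''
      rw [← pm_mul] at e2 e3
      rw [← pm_mul, ← pm_mul] at e4
      set X := L * pm β * star L with hX
      have hexp : pm α * (g.2 * L * pm β * star (g.2 * L)) * pm γ
          = pm α * X * pm γ - (2 : ℂ) • (pm α * pm q * X * pm γ)
            - (2 : ℂ) • (pm α * X * (pm q * pm γ))
            + (4 : ℂ) • (pm α * pm q * X * (pm q * pm γ)) := by
        rw [star_mul, hg, star_refl hq, hX]
        simp only [mul_sub, sub_mul, mul_one, one_mul, mul_smul_comm, smul_mul_assoc, mul_assoc]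
        module
      rw [hexp, map_add, map_sub, map_sub, map_smul, map_smul, map_smul]
      have hcard : (9 : ℝ) ^ J.card = 9 * 9 ^ (J.erase i0).card := by
        rw [← card_erase_add_one hi0J, pow_succ]; ring
      have n2 : ‖(2 : ℂ)‖ = 2 := by simp
      have n4 : ‖(4 : ℂ)‖ = 4 := by simp
      refine (norm_add_le _ _).trans ?_
      refine (add_le_add (norm_sub_le _ _) le_rfl).trans ?_
      refine (add_le_add (add_le_add (norm_sub_le _ _) le_rfl) le_rfl).trans ?_
      rw [norm_smul, norm_smul, norm_smul, n2, n4, hcard]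
      linarith

/-- Abstract circuits of depth `d`. -/
inductive IsCirc : ℕ → Mat N → Prop
  | zero : IsCirc 0 1
  | succ {d : ℕ} {U L : Mat N} : IsCirc d U → IsLayer L → IsCirc (d + 1) (U * L)

lemma IsCirc.mul_left {d : ℕ} {U L : Mat N} (hU : IsCirc d U) (hL : IsLayer L) :
    IsCirc (d + 1) (L * U) := by
  induction hU with
  | zero => rw [mul_one, ← one_mul L]; exact IsCirc.zero.succ hL
  | succ _ hL' ih => rw [← mul_assoc]; exact ih.succ hL'

lemma IsCirc.star {d : ℕ} {U : Mat N} (hU : IsCirc d U) : IsCirc d (star U) := by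
  induction hU with
  | zero => rw [star_one]; exact IsCirc.zero
  | succ _ hL ih => rw [star_mul]; exact ih.mul_left hL.star

lemma IsCirc.mul_star {d : ℕ} {U : Mat N} (hU : IsCirc d U) : U * Star.star U = 1 := by
  induction hU with
  | zero => simp
  | succ _ hL ih => rw [star_mul, mul_assoc, ← mul_assoc _ (Star.star _), hL.mul_star, one_mul, ih]

lemma IsCirc.star_mul {d : ℕ} {U : Mat N} (hU : IsCirc d U) : Star.star U * U = 1 := by
  have := hU.star.mul_star
  rwa [star_star] at this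

lemma IsCirc.mono {d d' : ℕ} {U : Mat N} (hU : IsCirc d U) (h : d ≤ d') : IsCirc d' U := by
  induction h with
  | refl => exact hU
  | step _ ih => rw [← mul_one U]; exact ih.succ isLayer_one

lemma IsCirc.norm_conj_le {d : ℕ} {U : Mat N} (hU : IsCirc d U) (X : Mat N) :
    ‖U * X * Star.star U‖ ≤ ‖X‖ := by
  have h1 : ‖U‖ ≤ 1 := norm_le_one_of_star_mul hU.star_mul
  exact norm_mul_le_of_right (norm_mul_le_of_left h1 le_rfl) (by rwa [norm_star])

/-- Localization for product projections with small support. -/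
def Pre (U : Mat N) (κ k : ℝ) : Prop :=
  ∀ n h : Fin N → M2, IsPF n → IsPF h → ∀ (J : Finset (Fin N)) (a : ℝ), 0 ≤ a →
    ‖up (Ep n) (κ * a) * (U * (pm fun i => if i ∈ J then h i else 1) * star U) * low (Ep n) a‖
      ≤ 9 ^ J.card * (15 * Real.exp (-(a / k)))

/-- Localization for all product projections. -/
def Loc (U : Mat N) (κ k : ℝ) : Prop :=
  ∀ n π : Fin N → M2, IsPF n → IsPF π → ∀ a : ℝ, 0 ≤ a →
    ‖up (Ep n) (κ * a) * (U * pm π * star U) * low (Ep n) a‖ ≤ 5 * Real.exp (-(a / k))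

lemma Pre.mono {U : Mat N} {κ k κ' k' : ℝ} (h : Pre U κ k) (hκ : κ ≤ κ') (hk0 : 0 < k)
    (hk : k ≤ k') : Pre U κ' k' := by
  intro n π hn hπ J a ha
  have h1 := h n π hn hπ J a ha
  rw [mul_assoc] at h1 ⊢
  refine (hn.res.up_mono (mul_le_mul_of_nonneg_right hκ ha) _).trans (h1.trans ?_)
  have : Real.exp (-(a / k)) ≤ Real.exp (-(a / k')) :=
    Real.exp_le_exp.2 (neg_le_neg (div_le_div_of_nonneg_left ha hk0 hk))
  gcongr

lemma pre_one : Pre (1 : Mat N) 2 1 := by
  intro n h hn hh J a ha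
  rw [star_one, one_mul, mul_one, div_one]
  rcases lt_or_ge (J.card : ℝ) a with h1 | h1
  · rw [exact_local hn J (fun i hi => if_neg hi) (by linarith), norm_zero]
    positivity
  · have h2 : ‖up (Ep n) (2 * a) * (pm fun i => if i ∈ J then h i else 1) * low (Ep n) a‖ ≤ 1 :=
      norm_mul_le_of_left (norm_mul_le_of_left (hn.res.norm_up_le _) (hh.ite J).norm_pm_le)
        (hn.res.norm_low_le _)
    refine h2.trans ?_
    have h3 : Real.exp J.card ≤ 9 ^ J.card := by
      rw [← mul_one (J.card : ℝ), Real.exp_nat_mul]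
      exact pow_le_pow_left₀ (by positivity) (by linarith [Real.exp_one_lt_d9]) _
    have h4 : 1 ≤ Real.exp J.card * Real.exp (-a) := by
      rw [← Real.exp_add]; exact Real.one_le_exp (by linarith)
    have h5 := mul_le_mul_of_nonneg_right h3 (Real.exp_pos (-a)).le
    linarith

theorem loc_of_pre {d : ℕ} {U : Mat N} (hU : IsCirc d U) {κ k Y w : ℝ} (hY : 10 ^ 6 ≤ Y)
    (hκ : 1 ≤ κ) (hk : 1 ≤ k) (hN : 3 + 4 * (9 * (N : ℝ)) ≤ Real.exp Y)
    (hw : κ ^ 2 * k * Y ^ 6 ≤ w) (h1 : Pre U κ k) (h2 : Pre (star U) κ k)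
    {T : ℕ} (hT : (N : ℝ) < (w ^ 2 / κ) ^ T) :
    Loc U (w ^ 2) (k * (κ ^ 2 * k * Y ^ 7) ^ T) := by
  intro n π hn hπ a ha
  have hh := hπ.compl
  have hF := hh.res.conj hU.star_mul hU.mul_star
  have := localization hn.res hF hY hκ hk (by simpa using hN) hw (T := T) ?_ ?_
    (by simpa using hT) ha
  · have e : Ep (fun i => 1 - π i) ∅ = pm π := pm_congr fun i => by simp
    rwa [e] at this
  · intro J a ha
    rw [sub, op_conj, ← sub, sub_Ep]
    exact h1 n _ hn hh J a ha
  · intro I a ha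
    have h3 := h2 _ n hh hn I a ha
    rw [star_star] at h3
    refine le_trans (le_of_eq ?_) ((hU.norm_conj_le _).trans h3)
    rw [up, low, cnt, cnt, op_conj, op_conj, sub_Ep, up, low, cnt, cnt]
    simp only [mul_assoc]

theorem pre_of_loc {d : ℕ} {U L : Mat N} (hU : IsCirc d U) (hL : IsLayer L) {κ k : ℝ} (hκ : 1 ≤ κ)
    (hk : 0 < k) (h : Loc U κ k) : Pre (U * L) (κ ^ 3) k := by
  intro n π hn hπ J a ha
  obtain ⟨l, h1, h2, rfl⟩ := hL
  let Φ : Mat N →ₗ[ℂ] Mat N :=
    { toFun := fun X => up (Ep n) (κ ^ 3 * a) * (U * X * star U) * low (Ep n) a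
      map_add' := fun X Y => by simp only [mul_add, add_mul]
      map_smul' := fun c X => by simp only [mul_smul_comm, smul_mul_assoc, RingHom.id_apply] }
  have key := layer_expand Φ (ε := 15 * Real.exp (-(a / k))) (by positivity) ?_ l h1 h2
    (fun _ => 1) (fun i => if i ∈ J then π i else 1) (fun _ => 1) J isPF_one (hπ.ite J) isPF_one
    (fun _ _ _ _ => rfl) (fun _ _ _ _ => rfl) (fun _ _ i _ hi => if_neg hi)
  · rw [pm_one, one_mul, mul_one] at key
    refine le_trans (le_of_eq ?_) key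
    simp only [Φ, LinearMap.coe_mk, AddHom.coe_mk, star_mul, mul_assoc]
  · intro α β γ hα hβ hγ
    have e : U * (pm α * pm β * pm γ) * star U
        = (U * pm α * star U) * ((U * pm β * star U) * (U * pm γ * star U)) := by
      calc U * (pm α * pm β * pm γ) * star U
          = U * pm α * (star U * U) * pm β * (star U * U) * pm γ * star U := by
            rw [hU.star_mul]; simp only [mul_assoc, one_mul]
        _ = _ := by simp only [mul_assoc]
    have nα := (hU.norm_conj_le _).trans hα.norm_pm_le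
    have nβ := (hU.norm_conj_le _).trans hβ.norm_pm_le
    have nγ := (hU.norm_conj_le _).trans hγ.norm_pm_le
    have ha1 : a ≤ κ * a := le_mul_of_one_le_left ha hκ
    have ha2 : κ * a ≤ κ * (κ * a) := le_mul_of_one_le_left (by linarith) hκ
    have l1 := h n α hn hα (κ * (κ * a)) (by linarith)
    have l2 := h n β hn hβ (κ * a) (by linarith)
    have l3 := h n γ hn hγ a ha
    have c := hn.res.comp nα (norm_mul_le_of_left nβ nγ) l1 (hn.res.comp nβ nγ l2 l3)
    have x1 : Real.exp (-(κ * (κ * a) / k)) ≤ Real.exp (-(a / k)) :=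
      Real.exp_le_exp.2 (neg_le_neg (div_le_div_of_nonneg_right (by linarith) hk.le))
    have x2 : Real.exp (-(κ * a / k)) ≤ Real.exp (-(a / k)) :=
      Real.exp_le_exp.2 (neg_le_neg (div_le_div_of_nonneg_right ha1 hk.le))
    simp only [Φ, LinearMap.coe_mk, AddHom.coe_mk]
    rw [e, show κ ^ 3 * a = κ * (κ * (κ * a)) by ring]
    linarith

open Filter in
/-- Localization at scale `Z` for constant depth and polynomially many qubits. -/
theorem pre_eventually (d : ℕ) : ∀ e : ℕ, ∀ᶠ Z : ℝ in atTop, ∀ N : ℕ, (N : ℝ) ≤ Z ^ e →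
    ∀ U : Mat N, IsCirc d U → Pre U Z Z := by
  induction d with
  | zero =>
    intro e
    filter_upwards [eventually_ge_atTop 2] with Z hZ N _ U hU
    cases hU
    exact pre_one.mono hZ one_pos (by linarith)
  | succ d ih =>
    intro e
    set T : ℕ := 3 * e + 5 with hT
    have hD : (12 * T : ℕ) ≠ 0 := by omega
    have hexp : ∀ᶠ Y : ℝ in atTop, 39 * Y ^ (12 * T * e) ≤ Real.exp Y := by
      filter_upwards [(Real.tendsto_exp_div_pow_atTop (12 * T * e)).eventually_ge_atTop 39,
        eventually_gt_atTop 0] with Y h1 h2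
      rwa [le_div_iff₀ (by positivity)] at h1
    have hall : ∀ᶠ Y : ℝ in atTop, ∀ N : ℕ, (N : ℝ) ≤ (Y ^ (12 * T)) ^ e →
        ∀ U : Mat N, IsCirc (d + 1) U → Pre U (Y ^ (12 * T)) (Y ^ (12 * T)) := by
      filter_upwards [ih (12 * T * e), hexp, eventually_ge_atTop (10 ^ 6 : ℝ)] with Y h1 h2 hY
      intro N hN U hU
      rw [← pow_mul] at hN
      have hY1 : 1 < Y := by linarith
      have hY0 : 0 < Y := by linarith
      cases hU with
      | @succ _ U L hU hL =>
        have h3 : (1 : ℝ) ≤ Y ^ (12 * T * e) := one_le_pow₀ hY1.le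
        have hloc := loc_of_pre hU (κ := Y) (k := Y) (Y := Y) (w := Y ^ (2 * T)) hY hY1.le hY1.le
          (by linarith) (by
            rw [show Y ^ 2 * Y * Y ^ 6 = Y ^ 9 by ring]
            exact pow_le_pow_right₀ hY1.le (by omega))
          (h1 N hN U hU) (h1 N hN _ hU.star) (T := T) (by
            have e1 : (Y ^ (2 * T)) ^ 2 / Y = Y ^ (12 * e + 19) := by
              rw [div_eq_iff hY0.ne', ← pow_mul, ← pow_succ]
              congr 1
              omega
            rw [e1, ← pow_mul]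
            refine hN.trans_lt (pow_lt_pow_right₀ hY1 ?_)
            have : 0 < T := by omega
            nlinarith)
        refine (pre_of_loc hU hL (one_le_pow₀ (one_le_pow₀ hY1.le)) (by positivity) hloc).mono
          (le_of_eq ?_) (by positivity) ?_
        · rw [← pow_mul, ← pow_mul]; congr 1; ring
        · rw [show Y ^ 2 * Y * Y ^ 7 = Y ^ 10 by ring, ← pow_mul, ← pow_succ']
          exact pow_le_pow_right₀ hY1.le (by omega)
    have hroot : Tendsto (fun Z : ℝ => Z ^ (((12 * T : ℕ) : ℝ)⁻¹)) atTop atTop :=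
      tendsto_rpow_atTop (by positivity)
    filter_upwards [hroot.eventually hall, eventually_ge_atTop 0] with Z h1 hZ
    rwa [Real.rpow_inv_natCast_pow hZ hD] at h1

end Vale.Agent.P368
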