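import Vale.Agent.P368.Defs
import Vale.Agent.P368.Prod

/-!
From localization to the parity lower bound.
-/

namespace Vale.Agent.P368

open Finset
open scoped Matrix.Norms.L2Operator

variable {N : ℕ}

lemma prod_one_apply (b : Fin N) (z z' : Fin N → Bool) :
    ∏ j ∈ univ.erase b, (1 : M2) (z j) (z' j) = if ∀ j, j ≠ b → z j = z' j then 1 else 0 := by
  split_ifs with h
  · exact prod_eq_one fun j hj => by rw [h j (ne_of_mem_erase hj), Matrix.one_apply_eq]
  · push Not at h
    obtain ⟨j, h1, h2⟩ := h
    exact prod_eq_zero (mem_erase.2 ⟨h1, mem_univ j⟩) (Matrix.one_apply_ne h2)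

/-- The projection on a computational basis state of one qubit. -/
def bp (c : Bool) : M2 := Matrix.diagonal fun x => if x = c then 1 else 0

lemma bp_proj (c : Bool) : star (bp c) = bp c ∧ bp c * bp c = bp c := by
  constructor
  · ext x y; cases c <;> cases x <;> cases y <;> simp [bp, Matrix.star_apply]
  · ext x y; cases c <;> cases x <;> cases y <;> simp [bp]

/-- The projection on the minus state. -/
noncomputable def minusP : M2 := Matrix.of fun x y => if x = y then 1 / 2 else -1 / 2

lemma minusP_proj : star minusP = minusP ∧ minusP * minusP = minusP := by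
  constructor
  · ext x y; cases x <;> cases y <;> simp [minusP, Matrix.star_apply]
  · ext x y; cases x <;> cases y <;> simp [minusP, Matrix.mul_apply] <;> norm_num

lemma Gate.isGate (g : Gate N) : IsGate g.support g.matrix := by
  cases g with
  | oneQubit i u =>
    refine Or.inl ⟨fun j => if j = i then u.1 else 1, fun j => ?_, fun j hj => ?_, ?_⟩
    · simp only
      split_ifs
      · exact ⟨u.2.1, u.2.2⟩
      · simp
    · exact if_neg (by simpa [Gate.support] using hj)
    · ext z z'
      rw [pm_apply, ← Finset.mul_prod_erase _ _ (mem_univ i), if_pos rfl,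
        prod_congr rfl fun j hj => by rw [if_neg (ne_of_mem_erase hj)], prod_one_apply]
      simp only [Gate.matrix, Matrix.of_apply]
      split_ifs <;> simp
  | toffoli S b hS hb =>
    refine Or.inr ⟨fun j => if j = b then minusP else if j ∈ S then bp true else 1,
      fun j => ?_, fun j hj => ?_, ?_⟩
    · simp only
      split_ifs
      · exact minusP_proj
      · exact bp_proj true
      · simp
    · simp only [Gate.support, mem_insert, not_or] at hj
      simp [hj.1, hj.2]
    · ext z z'
      have h1 : ∏ j ∈ univ.erase b, (if j = b then minusP else if j ∈ S then bp true else 1)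
          (z j) (z' j) = if (∀ j, j ≠ b → z j = z' j) ∧ (∀ i ∈ S, z' i = true) then 1 else 0 := by
        split_ifs with h
        · refine prod_eq_one fun j hj => ?_
          have hj' := ne_of_mem_erase hj
          rw [if_neg hj', h.1 j hj']
          split_ifs with hjS
          · simp [bp, h.2 j hjS]
          · simp
        · rw [not_and_or] at h
          rcases h with h | h
          · push Not at h
            obtain ⟨j, h1, h2⟩ := h
            refine prod_eq_zero (mem_erase.2 ⟨h1, mem_univ j⟩) ?_
            rw [if_neg h1]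
            split_ifs
            · exact Matrix.diagonal_apply_ne _ h2
            · exact Matrix.one_apply_ne h2
          · push Not at h
            obtain ⟨j, h1, h2⟩ := h
            have hjb : j ≠ b := fun h => hb (h ▸ h1)
            refine prod_eq_zero (mem_erase.2 ⟨hjb, mem_univ j⟩) ?_
            rw [if_neg hjb, if_pos h1, bp, Matrix.diagonal_apply]
            split_ifs with h3 h4
            · exact absurd (h3 ▸ h4) h2
            · rfl
            · rfl
      have h2 : (z = z') ↔ (z b = z' b ∧ ∀ j, j ≠ b → z j = z' j) := by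
        constructor
        · rintro rfl; exact ⟨rfl, fun _ _ => rfl⟩
        · rintro ⟨h3, h4⟩
          funext j
          by_cases h : j = b
          · rw [h, h3]
          · exact h4 j h
      rw [Matrix.sub_apply, Matrix.smul_apply, pm_apply,
        ← Finset.mul_prod_erase _ _ (mem_univ b), if_pos rfl, h1, Matrix.one_apply]
      simp only [Gate.matrix, Matrix.of_apply, Function.eq_update_iff, h2, minusP]
      by_cases h3 : ∀ j, j ≠ b → z j = z' j
      · by_cases h4 : ∀ i ∈ S, z' i = true
        · rw [decide_eq_true h4]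
          simp only [eq_true h3, eq_true h4, and_true]
          cases z b <;> cases z' b <;> norm_num
        · rw [decide_eq_false h4]
          simp only [eq_true h3, eq_false h4, and_true]
          cases z b <;> cases z' b <;> simp
      · simp only [eq_false h3, and_false, false_and]
        simp

lemma Layer.isLayer (L : Layer N) : IsLayer L.matrix := by
  refine ⟨L.gates.map fun g => (g.support, g.matrix), ?_, ?_, ?_⟩
  · intro g hg
    obtain ⟨g', -, rfl⟩ := List.mem_map.1 hg
    exact g'.isGate
  · rw [List.pairwise_map]; exact L.disjoint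
  · rw [List.map_map]; rfl

lemma isCirc_circuitMatrix (C : List (Layer N)) : IsCirc C.length (circuitMatrix C) := by
  induction C with
  | nil => exact IsCirc.zero
  | cons L C ih =>
    have : circuitMatrix (L :: C) = circuitMatrix C * L.matrix := by
      simp [circuitMatrix]
    rw [this]
    exact ih.succ L.isLayer

lemma norm_entry_le (X : Mat N) (z z' : Fin N → Bool) : ‖X z z'‖ ≤ ‖X‖ := by
  have h1 := Matrix.l2_opNorm_mulVec X (EuclideanSpace.single z' (1 : ℂ))
  have h2 := PiLp.norm_apply_le
    ((EuclideanSpace.equiv (Fin N → Bool) ℂ).symm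
      (Matrix.mulVec X (EuclideanSpace.single z' (1 : ℂ)).ofLp)) z
  rw [PiLp.norm_single, norm_one, mul_one] at h1
  refine le_trans (le_of_eq ?_) (h2.trans h1)
  simp

lemma pm_diagonal (v : Fin N → Bool → ℂ) :
    pm (fun i => Matrix.diagonal (v i)) = Matrix.diagonal fun z => ∏ i, v i (z i) := by
  ext z z'
  rw [pm_apply, Matrix.diagonal_apply]
  split_ifs with h
  · subst h; simp
  · obtain ⟨i, hi⟩ := Function.ne_iff.1 h
    exact prod_eq_zero (mem_univ i) (Matrix.diagonal_apply_ne _ hi)

lemma op_Ep_diag (z' : Fin N → Bool) (F : Finset (Fin N) → ℝ) :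
    Op (Ep fun i => bp (!z' i)) F
      = Matrix.diagonal fun z => (F (univ.filter fun i => z i ≠ z' i) : ℂ) := by
  have h1 : ∀ K, Ep (fun i => bp (!z' i)) K
      = Matrix.diagonal fun z => if K = univ.filter (fun i => z i ≠ z' i) then 1 else 0 := by
    intro K
    have h2 : Ep (fun i => bp (!z' i)) K = pm fun i => Matrix.diagonal fun c =>
        if (i ∈ K ↔ c ≠ z' i) then 1 else 0 := by
      refine pm_congr fun i => ?_
      ext x y
      by_cases h : i ∈ K <;> cases hz : z' i <;> cases x <;> cases y <;> simp [h, bp, hz]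
    rw [h2, pm_diagonal]
    congr 1
    funext z
    rw [Finset.prod_boole]
    congr 1
    simp [Finset.ext_iff]
  unfold Op OpC
  simp only [h1]
  ext z y
  rw [Matrix.sum_apply]
  by_cases h : z = y
  · subst h
    simp
  · simp [Matrix.diagonal_apply_ne _ h]

lemma entry_small {V : Mat N} {Z a : ℝ} (hV : Pre V Z Z) (ha : 0 ≤ a) (o : Fin N) (c : Bool)
    (z z' : Fin N → Bool) (hz : Z * a ≤ ((univ.filter fun i => z i ≠ z' i).card : ℝ)) :
    ‖(V * (pm fun i => if i ∈ ({o} : Finset (Fin N)) then bp c else 1) * star V) z z'‖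
      ≤ 135 * Real.exp (-(a / Z)) := by
  have h1 := hV (fun i => bp (!z' i)) (fun _ => bp c) (fun i => bp_proj _) (fun i => bp_proj _)
    {o} a ha
  have h2 := (norm_entry_le _ z z').trans h1
  rw [up, low, cnt, cnt, op_Ep_diag, op_Ep_diag, Matrix.mul_diagonal, Matrix.diagonal_mul,
    if_pos hz, if_pos (by simpa using ha)] at h2
  simp only [Complex.ofReal_one, one_mul, mul_one, card_singleton, pow_one] at h2
  linarith

/-- Hadamard gate. -/
noncomputable def hadM : M2 := Matrix.of fun x y =>
  if x = true ∧ y = true then -(((√2)⁻¹ : ℝ) : ℂ) else (((√2)⁻¹ : ℝ) : ℂ)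

/-- Bit flip. -/
def flipM : M2 := Matrix.of fun x y => if x = y then 0 else 1

lemma sqrt_two_inv_sq : (((√2)⁻¹ : ℝ) : ℂ) * (((√2)⁻¹ : ℝ) : ℂ) = 1 / 2 := by
  rw [← Complex.ofReal_mul, ← mul_inv, Real.mul_self_sqrt (by norm_num)]
  simp

lemma hadM_star : star hadM = hadM := by
  ext x y
  cases x <;> cases y <;> simp [hadM, Matrix.star_apply]

lemma hadM_mul : hadM * hadM = 1 := by
  have h := sqrt_two_inv_sq
  ext x y
  cases x <;> cases y <;>
    simp only [hadM, Matrix.mul_apply, Fintype.sum_bool, Matrix.of_apply, Matrix.one_apply] <;>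
    simp only [Bool.false_eq_true, Bool.true_eq_false, and_true, and_false,
      if_true, if_false] <;>
    first | linear_combination 2 * h | ring

lemma hadM_flip : hadM * flipM * hadM = Matrix.diagonal fun x => if x = true then -1 else 1 := by
  have h := sqrt_two_inv_sq
  ext x y
  cases x <;> cases y <;>
    simp only [hadM, flipM, Matrix.mul_apply, Fintype.sum_bool, Matrix.of_apply,
      Matrix.diagonal_apply] <;>
    simp only [Bool.false_eq_true, Bool.true_eq_false, and_true, and_false,
      if_true, if_false] <;>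
    first | linear_combination 2 * h | linear_combination (-2) * h | ring

/-- The sign of a bit string. -/
def sgn {n : ℕ} (x : Fin n → Bool) : ℝ := if parity x = true then -1 else 1

lemma prod_sign {n : ℕ} (x : Fin n → Bool) :
    ∏ i, (if x i = true then (-1 : ℂ) else 1) = (sgn x : ℂ) := by
  rw [Finset.prod_ite, prod_const_one, mul_one, prod_const, sgn, parity]
  rcases Nat.even_or_odd (univ.filter fun i => x i = true).card with h | h
  · rw [h.neg_one_pow, if_neg (by simpa using h)]; simp
  · rw [h.neg_one_pow, if_pos (by simpa using h)]; simp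

lemma outProb_eq {n : ℕ} (C : List (Layer N)) (o : Fin N) (x : Fin n → Bool) (c : Bool) :
    (star (circuitMatrix C) * (pm fun i => if i ∈ ({o} : Finset (Fin N)) then bp c else 1)
      * circuitMatrix C) (inputString N x) (inputString N x) = (outProb C o x c : ℂ) := by
  have h1 : (pm fun i => if i ∈ ({o} : Finset (Fin N)) then bp c else 1)
      = Matrix.diagonal fun z => if z o = c then 1 else 0 := by
    have h2 : (pm fun i => if i ∈ ({o} : Finset (Fin N)) then bp c else 1)
        = pm fun i => Matrix.diagonal fun y => if i = o then (if y = c then 1 else 0) else 1 := by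
      refine pm_congr fun i => ?_
      by_cases h : i = o
      · simp [h, bp]
      · simp [h]
    rw [h2, pm_diagonal]
    congr 1
    funext z
    simp
  rw [h1, Matrix.mul_apply, outProb]
  push_cast
  refine sum_congr rfl fun z _ => ?_
  rw [Matrix.mul_diagonal, Matrix.star_apply]
  split_ifs
  · rw [mul_one, Complex.star_def, Complex.conj_mul', Complex.ofReal_pow]
  · simp

lemma outProb_add {n : ℕ} (C : List (Layer N)) (o : Fin N) (x : Fin n → Bool) :
    outProb C o x false + outProb C o x true = 1 := by
  have h := congrFun (congrFun (isCirc_circuitMatrix C).star_mul (inputString N x))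
    (inputString N x)
  rw [Matrix.one_apply_eq, Matrix.mul_apply] at h
  have h2 : ((outProb C o x false + outProb C o x true : ℝ) : ℂ) = 1 := by
    rw [← h, outProb, outProb, ← sum_add_distrib]
    push_cast
    refine sum_congr rfl fun z _ => ?_
    rw [Matrix.star_apply, Complex.star_def, Complex.conj_mul']
    cases z o <;> simp
  exact_mod_cast h2

lemma card_lt {n : ℕ} (hn : n ≤ N) : (univ.filter fun i : Fin N => i.val < n).card = n := by
  rw [Fin.card_filter_val_lt, min_eq_right hn]

lemma trace_z {n : ℕ} (hn : n ≤ N) (P : Mat N) :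
    Matrix.trace (P * pm fun i => if i.val < n then
      Matrix.diagonal (fun x => if x = true then -1 else 1) else bp false)
      = ∑ x : Fin n → Bool, (sgn x : ℂ) * P (inputString N x) (inputString N x) := by
  have h1 : (pm fun i : Fin N => if i.val < n then
      Matrix.diagonal (fun x => if x = true then -1 else 1) else bp false)
      = pm fun i => Matrix.diagonal fun x => if i.val < n then (if x = true then -1 else 1)
        else (if x = false then 1 else 0) := by
    refine pm_congr fun i => ?_
    by_cases h : i.val < n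
    · simp only [h, if_true]
    · simp only [h, if_false, bp]
  rw [h1, pm_diagonal, Matrix.trace]
  simp only [Matrix.diag_apply, Matrix.mul_diagonal]
  symm
  refine Fintype.sum_of_injective (inputString N) ?_ _ _ ?_ ?_
  · intro x y hxy
    funext i
    have := congrFun hxy (Fin.castLE hn i)
    simpa [inputString] using this
  · intro z hz
    have : ∃ i : Fin N, ¬ i.val < n ∧ z i = true := by
      by_contra hc
      push Not at hc
      refine hz ⟨fun i => z (Fin.castLE hn i), funext fun i => ?_⟩
      unfold inputString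
      split_ifs with h
      · rfl
      · exact (Bool.eq_false_iff.2 (hc i (not_lt.1 h))).symm
    obtain ⟨i, h2, h3⟩ := this
    rw [prod_eq_zero (mem_univ i) (by simp [h2, h3]), mul_zero]
  · intro x
    rw [mul_comm, ← prod_sign]
    congr 1
    refine Fintype.prod_of_injective (Fin.castLE hn) (Fin.castLE_injective hn) _ _ ?_ ?_
    · intro i hi
      have : ¬ i.val < n := fun h => hi ⟨⟨i.val, h⟩, rfl⟩
      simp [inputString, this]
    · intro i
      simp [inputString]

lemma trace_x {n : ℕ} (hn : n ≤ N) (X : Mat N) {η : ℝ}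
    (hX : ∀ z z', (n : ℝ) ≤ ((univ.filter fun i => z i ≠ z' i).card : ℝ) → ‖X z z'‖ ≤ η) :
    ‖Matrix.trace (X * pm fun i => if i.val < n then flipM else bp false)‖ ≤ η * 2 ^ n := by
  set a : Fin N → M2 := fun i => if i.val < n then flipM else bp false with ha
  have h1 : ∀ z z', ‖X z z' * pm a z' z‖ ≤ η * ∏ i, ‖a i (z' i) (z i)‖ := by
    intro z z'
    rw [norm_mul, pm_apply, norm_prod]
    by_cases h : ∀ i : Fin N, i.val < n → z i ≠ z' i
    · refine mul_le_mul_of_nonneg_right (hX z z' ?_) (prod_nonneg fun i _ => norm_nonneg _)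
      have : (univ.filter fun i : Fin N => i.val < n) ⊆ univ.filter fun i => z i ≠ z' i :=
        fun i hi => mem_filter.2 ⟨mem_univ i, h i (mem_filter.1 hi).2⟩
      have h2 := card_le_card this
      rw [card_lt hn] at h2
      exact_mod_cast h2
    · push Not at h
      obtain ⟨i, h2, h3⟩ := h
      rw [prod_eq_zero (mem_univ i) (by simp [ha, h2, h3, flipM])]
      simp
  have h2 : ∑ z : Fin N → Bool, ∑ z' : Fin N → Bool, ∏ i, ‖a i (z' i) (z i)‖ = 2 ^ n := by
    have h3 : ∀ z : Fin N → Bool, ∑ z' : Fin N → Bool, ∏ i, ‖a i (z' i) (z i)‖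
        = ∏ i, ∑ c', ‖a i c' (z i)‖ := fun z => by
      rw [Finset.prod_univ_sum, Fintype.piFinset_univ]
    have h4 : ∑ z : Fin N → Bool, ∏ i, ∑ c', ‖a i c' (z i)‖ = ∏ i, ∑ c, ∑ c', ‖a i c' c‖ := by
      rw [Finset.prod_univ_sum, Fintype.piFinset_univ]
    have h5 : ∀ i, ∑ c, ∑ c', ‖a i c' c‖ = if i.val < n then (2 : ℝ) else 1 := fun i => by
      by_cases h : i.val < n
      · simp [ha, h, flipM]; norm_num
      · simp [ha, h, bp]
    simp only [h3, h4, h5]
    rw [Finset.prod_ite, prod_const_one, mul_one, prod_const, card_lt hn]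
  rw [Matrix.trace]
  simp only [Matrix.diag_apply, Matrix.mul_apply]
  refine (norm_sum_le _ _).trans ?_
  rw [← h2, mul_sum]
  refine sum_le_sum fun z _ => (norm_sum_le _ _).trans ?_
  rw [mul_sum]
  exact sum_le_sum fun z' _ => h1 z z'

lemma fourier_small {d n : ℕ} (hn : n ≤ N) {Z a : ℝ} (ha : 0 ≤ a) (hZ : Z * a ≤ n)
    (hpre : ∀ U : Mat N, IsCirc (d + 1) U → Pre U Z Z) (C : List (Layer N)) (hC : C.length ≤ d)
    (o : Fin N) (c : Bool) :
    |∑ x : Fin n → Bool, sgn x * outProb C o x c| ≤ 135 * Real.exp (-(a / Z)) * 2 ^ n := by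
  set U := circuitMatrix C with hU
  set π := pm fun i => if i ∈ ({o} : Finset (Fin N)) then bp c else 1 with hπ
  set W : Mat N := pm fun i => if i.val < n then hadM else 1 with hW
  have hWg : IsGate univ W := Or.inl ⟨_, fun i => by
    split_ifs
    · rw [hadM_star]; exact ⟨hadM_mul, hadM_mul⟩
    · simp, by simp, rfl⟩
  have hV : IsCirc (d + 1) (star W * star U) :=
    ((isCirc_circuitMatrix C).mono hC).star.mul_left hWg.star.isLayer
  have h1 := trace_x hn (star W * star U * π * star (star W * star U))
    fun z z' hz => entry_small (hpre _ hV) ha o c z z' (hZ.trans hz)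
  have h2 : (pm fun i : Fin N => if i.val < n then
      Matrix.diagonal (fun x => if x = true then -1 else 1) else bp false)
      = W * (pm fun i => if i.val < n then flipM else bp false) * star W := by
    rw [hW, pm_star, pm_mul, pm_mul]
    refine pm_congr fun i => ?_
    split_ifs
    · rw [hadM_star, hadM_flip]
    · simp
  have h3 := trace_z hn (star U * π * U)
  rw [h2, ← mul_assoc, Matrix.trace_mul_comm] at h3
  have h4 : star W * star U * π * star (star W * star U)
      * (pm fun i => if i.val < n then flipM else bp false)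
      = star W * (star U * π * U * (W * pm fun i => if i.val < n then flipM else bp false)) := by
    simp only [star_mul, star_star, mul_assoc]
  rw [h4, h3] at h1
  have h5 : ∑ x : Fin n → Bool, (sgn x : ℂ) * (star U * π * U) (inputString N x) (inputString N x)
      = ((∑ x : Fin n → Bool, sgn x * outProb C o x c : ℝ) : ℂ) := by
    push_cast
    exact sum_congr rfl fun x _ => by rw [outProb_eq]
  rwa [h5, Complex.norm_real, Real.norm_eq_abs] at h1

lemma poly_le_pow (p : Polynomial ℕ) : ∃ c : ℕ, ∀ n : ℕ, 2 ≤ n → p.eval n ≤ n ^ c := by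
  induction p using Polynomial.induction_on' with
  | add p q hp hq =>
    obtain ⟨c, hc⟩ := hp
    obtain ⟨c', hc'⟩ := hq
    refine ⟨c + c' + 1, fun n hn => ?_⟩
    have h1 : n ^ c ≤ n ^ (c + c') := Nat.pow_le_pow_right (by omega) (by omega)
    have h2 : n ^ c' ≤ n ^ (c + c') := Nat.pow_le_pow_right (by omega) (by omega)
    have h3 := hc n hn
    have h4 := hc' n hn
    rw [Polynomial.eval_add, pow_succ]
    nlinarith
  | monomial k a =>
    refine ⟨a + k, fun n hn => ?_⟩
    rw [Polynomial.eval_monomial, pow_add]
    refine Nat.mul_le_mul_right _ ?_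
    exact (Nat.lt_two_pow_self.le).trans (Nat.pow_le_pow_left hn a)

open Filter in
theorem correlation_small (d : ℕ) (p : Polynomial ℕ) {ε : ℝ} (hε : 0 < ε) :
    ∃ n₀ : ℕ, ∀ n, n₀ ≤ n → ∀ N : ℕ, n ≤ N → N ≤ p.eval n → ∀ C : List (Layer N),
      C.length ≤ d → ∀ o : Fin N,
        |∑ x : Fin n → Bool, (outProb C o x (parity x) - outProb C o x (!parity x))|
          ≤ ε * 2 ^ n := by
  obtain ⟨c, hc⟩ := poly_le_pow p
  have hsmall : ∀ᶠ Z : ℝ in atTop, 270 * Real.exp (-Z) ≤ ε := by
    have := Real.tendsto_exp_neg_atTop_nhds_zero.const_mul 270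
    rw [mul_zero] at this
    exact this.eventually (ge_mem_nhds hε)
  have hroot : Tendsto (fun n : ℕ => (n : ℝ) ^ (((3 : ℕ) : ℝ)⁻¹)) atTop atTop :=
    (tendsto_rpow_atTop (by positivity)).comp tendsto_natCast_atTop_atTop
  have hall := ((hroot.eventually ((pre_eventually (d + 1) (3 * c)).and
    (hsmall.and (eventually_gt_atTop 0)))).and (eventually_ge_atTop 2))
  obtain ⟨n₀, hn₀⟩ := eventually_atTop.1 hall
  refine ⟨n₀, fun n hn N hnN hN C hC o => ?_⟩
  obtain ⟨⟨h1, h2, h3⟩, h4⟩ := hn₀ n hn
  have hZ : ((n : ℝ) ^ (((3 : ℕ) : ℝ)⁻¹)) ^ 3 = n :=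
    Real.rpow_inv_natCast_pow (Nat.cast_nonneg n) (by norm_num)
  set Z := (n : ℝ) ^ (((3 : ℕ) : ℝ)⁻¹) with hZdef
  have hNZ : (N : ℝ) ≤ Z ^ (3 * c) := by
    rw [pow_mul, hZ]
    exact_mod_cast hN.trans (hc n h4)
  have h5 := fun b => fourier_small hnN (a := Z ^ 2) (Z := Z) (by positivity)
    (le_of_eq (by rw [← hZ]; ring)) (h1 N hNZ) C hC o b
  have h6 : Z ^ 2 / Z = Z := by field_simp
  rw [h6] at h5
  have h7 : ∑ x : Fin n → Bool, (outProb C o x (parity x) - outProb C o x (!parity x))
      = ∑ x : Fin n → Bool, sgn x * outProb C o x false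
        - ∑ x : Fin n → Bool, sgn x * outProb C o x true := by
    rw [← sum_sub_distrib]
    refine sum_congr rfl fun x _ => ?_
    unfold sgn
    cases parity x
    · simp
    · simp only [if_true, Bool.not_true]; ring
  rw [h7]
  refine (abs_sub _ _).trans ((add_le_add (h5 false) (h5 true)).trans ?_)
  have : (0 : ℝ) ≤ 2 ^ n := by positivity
  nlinarith

theorem worst_case (d : ℕ) (p : Polynomial ℕ) {ε : ℝ} (hε : 0 < ε) :
    ∃ n₀ : ℕ, ∀ n, n₀ ≤ n → ∀ N : ℕ, n ≤ N → N ≤ p.eval n → ∀ C : List (Layer N),
      C.length ≤ d → ∀ o : Fin N, ∃ x : Fin n → Bool, outProb C o x (parity x) < 1 / 2 + ε := by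
  obtain ⟨n₀, h⟩ := correlation_small d p hε
  refine ⟨n₀, fun n hn N hnN hN C hC o => ?_⟩
  by_contra hc
  push Not at hc
  have h1 := (le_abs_self _).trans (h n hn N hnN hN C hC o)
  have h2 : ∀ x ∈ (univ : Finset (Fin n → Bool)),
      2 * ε ≤ outProb C o x (parity x) - outProb C o x (!parity x) := fun x _ => by
    have h3 := hc x
    have h4 := outProb_add C o x
    cases hp : parity x <;> rw [hp] at h3 <;> simp only [Bool.not_false, Bool.not_true] <;> linarith
  have h3 := Finset.card_nsmul_le_sum _ _ _ h2
  rw [card_univ, nsmul_eq_mul] at h3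
  have h4 : (Fintype.card (Fin n → Bool) : ℝ) = 2 ^ n := by simp
  rw [h4] at h3
  have h5 : (0 : ℝ) < 2 ^ n := by positivity
  nlinarith

end Vale.Agent.P368
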