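import Mathlib

/-!
Polynomial functions with a weighted coefficient bound, and the two approximating polynomials.
-/

namespace Vale.Agent.P368

open Finset

/-- `Rep R f Λ`: `f` is a polynomial function whose coefficients satisfy `∑ |c l| R ^ l ≤ Λ`. -/
inductive Rep (R : ℝ) : (ℝ → ℝ) → ℝ → Prop
  | const (c : ℝ) : Rep R (fun _ => c) |c|
  | idmul {f : ℝ → ℝ} {L : ℝ} : Rep R f L → Rep R (fun x => x * f x) (R * L)
  | add {f g : ℝ → ℝ} {L L' : ℝ} : Rep R f L → Rep R g L' → Rep R (fun x => f x + g x) (L + L')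
  | mono {f : ℝ → ℝ} {L L' : ℝ} : Rep R f L → L ≤ L' → Rep R f L'

namespace Rep

variable {R : ℝ}

lemma congr {f g : ℝ → ℝ} {L : ℝ} (h : Rep R f L) (hfg : ∀ x, f x = g x) : Rep R g L := by
  have : f = g := funext hfg
  rwa [← this]

lemma bound {f : ℝ → ℝ} {L : ℝ} (h : Rep R f L) {x : ℝ} (hx : |x| ≤ R) : |f x| ≤ L := by
  induction h with
  | const c => exact le_rfl
  | idmul _ ih =>
    rw [abs_mul]
    exact mul_le_mul hx ih (abs_nonneg _) ((abs_nonneg _).trans hx)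
  | add _ _ ih1 ih2 => exact (abs_add_le _ _).trans (add_le_add ih1 ih2)
  | mono _ hle ih => exact ih.trans hle

lemma nonneg (hR : 0 ≤ R) {f : ℝ → ℝ} {L : ℝ} (h : Rep R f L) : 0 ≤ L :=
  (abs_nonneg _).trans (h.bound (x := 0) (by simpa using hR))

lemma smul {f : ℝ → ℝ} {L : ℝ} (h : Rep R f L) (c : ℝ) : Rep R (fun x => c * f x) (|c| * L) := by
  induction h with
  | const d => rw [← abs_mul]; exact Rep.const _
  | idmul _ ih => exact (ih.idmul.congr fun x => by ring).mono (le_of_eq (by ring))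
  | add _ _ ih1 ih2 => exact ((ih1.add ih2).congr fun x => by ring).mono (le_of_eq (by ring))
  | mono _ hle ih => exact ih.mono (mul_le_mul_of_nonneg_left hle (abs_nonneg _))

lemma mul (hR : 0 ≤ R) {f g : ℝ → ℝ} {L L' : ℝ} (h : Rep R f L) (h' : Rep R g L') :
    Rep R (fun x => f x * g x) (L * L') := by
  induction h with
  | const d => exact h'.smul d
  | idmul _ ih => exact (ih.idmul.congr fun x => by ring).mono (le_of_eq (by ring))
  | add _ _ ih1 ih2 => exact ((ih1.add ih2).congr fun x => by ring).mono (le_of_eq (by ring))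
  | mono _ hle ih => exact ih.mono (mul_le_mul_of_nonneg_right hle (h'.nonneg hR))

lemma one : Rep R (fun _ => 1) 1 := by simpa using Rep.const (R := R) 1

lemma pow (hR : 0 ≤ R) {f : ℝ → ℝ} {L : ℝ} (h : Rep R f L) (n : ℕ) :
    Rep R (fun x => f x ^ n) (L ^ n) := by
  induction n with
  | zero => simpa using one
  | succ n ih => exact ((ih.mul hR h).congr fun x => by ring).mono (le_of_eq (by ring))

lemma prod (hR : 0 ≤ R) {κ : Type} (s : Finset κ) {f : κ → ℝ → ℝ} {L : ℝ}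
    (h : ∀ j ∈ s, Rep R (f j) L) : Rep R (fun x => ∏ j ∈ s, f j x) (L ^ s.card) := by
  classical
  induction s using Finset.induction_on with
  | empty => simpa using one
  | insert j s hj ih =>
    have h1 := (h j (mem_insert_self _ _)).mul hR (ih fun i hi => h i (mem_insert_of_mem hi))
    exact (h1.congr fun x => by rw [prod_insert hj]).mono
      (le_of_eq (by rw [card_insert_of_notMem hj]; ring))

lemma sum {κ : Type} (s : Finset κ) {f : κ → ℝ → ℝ} {L : ℝ}
    (h : ∀ j ∈ s, Rep R (f j) L) : Rep R (fun x => ∑ j ∈ s, f j x) (s.card * L) := by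
  classical
  induction s using Finset.induction_on with
  | empty => simpa using Rep.const (R := R) 0
  | insert j s hj ih =>
    have h1 := (h j (mem_insert_self _ _)).add (ih fun i hi => h i (mem_insert_of_mem hi))
    exact (h1.congr fun x => by rw [sum_insert hj]).mono
      (le_of_eq (by rw [card_insert_of_notMem hj]; push_cast; ring))

lemma affine (c : ℝ) : Rep R (fun x => 1 - c * x) (1 + |c| * R) := by
  have h1 : Rep R (fun x => x * (-c)) (R * |-c|) := (Rep.const (-c)).idmul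
  exact ((one.add h1).congr fun x => by ring).mono (le_of_eq (by rw [abs_neg]; ring))

end Rep

/-- Chebyshev polynomial functions. -/
def ch : ℕ → ℝ → ℝ
  | 0, _ => 1
  | 1, y => y
  | n + 2, y => 2 * y * ch (n + 1) y - ch n y

lemma ch_cos (θ : ℝ) : ∀ n : ℕ, ch n (Real.cos θ) = Real.cos (n * θ)
  | 0 => by simp [ch]
  | 1 => by simp [ch]
  | n + 2 => by
    rw [ch, ch_cos θ (n + 1), ch_cos θ n]
    have h1 : ((n + 2 : ℕ) : ℝ) * θ = ((n + 1 : ℕ) : ℝ) * θ + θ := by push_cast; ring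
    have h2 : (n : ℝ) * θ = ((n + 1 : ℕ) : ℝ) * θ - θ := by push_cast; ring
    rw [h1, h2, Real.cos_add, Real.cos_sub]
    ring

lemma rep_ch {R : ℝ} (hR : 0 ≤ R) {l : ℝ → ℝ} (hl : Rep R l (1 + 2 * R)) :
    ∀ n : ℕ, Rep R (fun x => ch n (l x)) ((3 + 4 * R) ^ n)
  | 0 => by simpa [ch] using Rep.one
  | 1 => by
    simp only [ch, pow_one]
    exact hl.mono (by linarith)
  | n + 2 => by
    have h1 := rep_ch hR hl (n + 1)
    have h0 := rep_ch hR hl n
    have h2 := ((hl.mul hR h1).smul 2).add (h0.smul (-1))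
    refine (h2.congr fun x => by rw [ch]; ring).mono ?_
    have h3 : (0 : ℝ) ≤ (3 + 4 * R) ^ n := by positivity
    rw [abs_neg, abs_one, abs_two, pow_succ, pow_succ, pow_succ]
    nlinarith [mul_nonneg h3 hR]

/-- The normalized Dirichlet kernel as a polynomial on `[0, m]`. -/
noncomputable def psi (m : ℝ) (r : ℕ) (x : ℝ) : ℝ :=
  (r : ℝ)⁻¹ * ∑ j ∈ range r, ch j (1 - 2 / m * x)

lemma rep_psi {R m : ℝ} (hR : 0 ≤ R) (hm : 1 ≤ m) {r : ℕ} (hr : 1 ≤ r) :
    Rep R (psi m r) ((3 + 4 * R) ^ r) := by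
  have hl : Rep R (fun x => 1 - 2 / m * x) (1 + 2 * R) := by
    refine (Rep.affine (2 / m)).mono ?_
    have h1 : |2 / m| ≤ 2 := by
      rw [abs_of_nonneg (by positivity), div_le_iff₀ (by linarith)]
      linarith
    nlinarith
  have h1 : ∀ j ∈ range r, Rep R (fun x => ch j (1 - 2 / m * x)) ((3 + 4 * R) ^ r) :=
    fun j hj => (rep_ch hR hl j).mono
      (pow_le_pow_right₀ (by linarith) (mem_range.1 hj).le)
  have h2 := (Rep.sum (range r) h1).smul (r : ℝ)⁻¹
  refine h2.mono (le_of_eq ?_)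
  have : (0 : ℝ) < r := by exact_mod_cast hr
  rw [card_range, abs_of_pos (inv_pos.2 this)]
  field_simp

lemma psi_eq {m x : ℝ} (hm : 0 < m) (hx0 : 0 ≤ x) (hx : x ≤ m) (r : ℕ) :
    ∃ t : ℝ, 0 ≤ Real.sin t ∧ Real.sin t ^ 2 = x / m ∧
      psi m r x = (r : ℝ)⁻¹ * ∑ j ∈ range r, Real.cos (j * (2 * t)) := by
  have h0 : 0 ≤ x / m := by positivity
  have h1 : x / m ≤ 1 := (div_le_one hm).2 hx
  have h2 : Real.sin (Real.arcsin √(x / m)) = √(x / m) :=
    Real.sin_arcsin (by linarith [Real.sqrt_nonneg (x / m)]) (Real.sqrt_le_one.2 h1)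
  have h3 : Real.sin (Real.arcsin √(x / m)) ^ 2 = x / m := by rw [h2, Real.sq_sqrt h0]
  refine ⟨Real.arcsin √(x / m), by rw [h2]; exact Real.sqrt_nonneg _, h3, ?_⟩
  have h4 : 1 - 2 / m * x = Real.cos (2 * Real.arcsin √(x / m)) := by
    rw [Real.cos_two_mul, Real.cos_sq', h3]; ring
  rw [psi, h4]
  simp only [ch_cos]

lemma psi_zero {m : ℝ} {r : ℕ} (hr : 1 ≤ r) : psi m r 0 = 1 := by
  have h : ∀ j, ch j 1 = 1 := fun j => by simpa using ch_cos 0 j
  have : (0 : ℝ) < r := by exact_mod_cast hr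
  simp only [psi, mul_zero, sub_zero, h, sum_const, card_range, nsmul_eq_mul, mul_one]
  field_simp

lemma abs_psi_le_one {m x : ℝ} (hm : 0 < m) (hx0 : 0 ≤ x) (hx : x ≤ m) {r : ℕ} (hr : 1 ≤ r) :
    |psi m r x| ≤ 1 := by
  obtain ⟨t, -, -, h⟩ := psi_eq hm hx0 hx r
  have hr' : (0 : ℝ) < r := by exact_mod_cast hr
  have h1 : |∑ j ∈ range r, Real.cos (j * (2 * t))| ≤ r := by
    refine (abs_sum_le_sum_abs _ _).trans ?_
    have := Finset.sum_le_card_nsmul (range r) (fun j => |Real.cos (j * (2 * t))|) 1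
      (fun j _ => Real.abs_cos_le_one _)
    simpa using this
  rw [h, abs_mul, abs_of_pos (inv_pos.2 hr'), inv_mul_le_iff₀ hr', mul_one]
  exact h1

lemma dirichlet (t : ℝ) (r : ℕ) : 2 * Real.sin t * ∑ j ∈ range r, Real.cos (j * (2 * t))
    = Real.sin (r * (2 * t) - t) + Real.sin t := by
  induction r with
  | zero => simp
  | succ r ih =>
    rw [sum_range_succ, mul_add, ih]
    have h1 : ((r + 1 : ℕ) : ℝ) * (2 * t) - t = r * (2 * t) + t := by push_cast; ring
    rw [h1, Real.sin_add, Real.sin_sub]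
    ring

lemma abs_psi_le_third {m x : ℝ} (hm : 0 < m) (hx0 : 0 ≤ x) (hx : x ≤ m) {r : ℕ} (hr : 1 ≤ r)
    (h9 : 9 * m ≤ (r : ℝ) ^ 2 * x) : |psi m r x| ≤ 1 / 3 := by
  obtain ⟨t, h0, h1, h⟩ := psi_eq hm hx0 hx r
  have hr' : (0 : ℝ) < r := by exact_mod_cast hr
  have h2 := dirichlet t r
  have h3 : Real.sin t * |∑ j ∈ range r, Real.cos (j * (2 * t))| ≤ 1 := by
    have h4 : |2 * Real.sin t * ∑ j ∈ range r, Real.cos (j * (2 * t))| ≤ 2 := by
      rw [h2]
      refine (abs_add_le _ _).trans ?_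
      linarith [Real.abs_sin_le_one (r * (2 * t) - t), Real.abs_sin_le_one t]
    rw [abs_mul, abs_of_nonneg (by positivity)] at h4
    linarith
  have h5 : 3 ≤ r * Real.sin t := by
    refine (abs_le_of_sq_le_sq' ?_ (by positivity)).2
    rw [mul_pow, h1, ← mul_div_assoc, le_div_iff₀ hm]
    linarith
  rw [h, abs_mul, abs_of_pos (inv_pos.2 hr'), inv_mul_le_iff₀ hr']
  have h6 := abs_nonneg (∑ j ∈ range r, Real.cos (j * (2 * t)))
  nlinarith

lemma abs_sin_nat_mul_le (t : ℝ) (j : ℕ) : |Real.sin (j * t)| ≤ j * |Real.sin t| := by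
  induction j with
  | zero => simp
  | succ j ih =>
    have h1 : ((j + 1 : ℕ) : ℝ) * t = j * t + t := by push_cast; ring
    rw [h1, Real.sin_add]
    refine (abs_add_le _ _).trans ?_
    rw [abs_mul, abs_mul]
    have h2 := Real.abs_cos_le_one t
    have h3 := Real.abs_cos_le_one (j * t)
    have h4 := abs_nonneg (Real.sin (j * t))
    have h5 := abs_nonneg (Real.sin t)
    push_cast
    nlinarith

lemma psi_lower {m x : ℝ} (hm : 0 < m) (hx0 : 0 ≤ x) (hx : x ≤ m) {r : ℕ} (hr : 1 ≤ r) :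
    1 - 2 * (r : ℝ) ^ 2 * (x / m) ≤ psi m r x := by
  obtain ⟨t, -, h1, h⟩ := psi_eq hm hx0 hx r
  have hr' : (0 : ℝ) < r := by exact_mod_cast hr
  have h2 : ∀ j ∈ range r, 1 - 2 * (r : ℝ) ^ 2 * (x / m) ≤ Real.cos (j * (2 * t)) := by
    intro j hj
    have h3 : (j : ℝ) * (2 * t) = 2 * (j * t) := by ring
    rw [h3, Real.cos_two_mul, Real.cos_sq']
    have h4 : Real.sin (j * t) ^ 2 ≤ (j : ℝ) ^ 2 * Real.sin t ^ 2 := by
      rw [← sq_abs (Real.sin (j * t)), ← sq_abs (Real.sin t), ← mul_pow]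
      exact pow_le_pow_left₀ (abs_nonneg _) (abs_sin_nat_mul_le t j) 2
    have h5 : (j : ℝ) ^ 2 ≤ (r : ℝ) ^ 2 :=
      pow_le_pow_left₀ (Nat.cast_nonneg _) (by exact_mod_cast (mem_range.1 hj).le) 2
    have h6 : 0 ≤ x / m := by positivity
    rw [h1] at h4
    nlinarith
  have h3 := Finset.card_nsmul_le_sum (range r) _ _ h2
  rw [card_range, nsmul_eq_mul] at h3
  rw [h, le_inv_mul_iff₀ hr']
  exact h3

/-- The polynomial approximating the indicator of `0` on the integers of `[0, m]`. -/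
noncomputable def gfun (q : ℕ) (m : ℝ) (r s : ℕ) (x : ℝ) : ℝ :=
  (∏ j ∈ range q, (1 - ((j : ℝ) + 1)⁻¹ * x)) * psi m r x ^ s

lemma rep_gprod {R : ℝ} (hR : 0 ≤ R) (q : ℕ) :
    Rep R (fun x => ∏ j ∈ range q, (1 - ((j : ℝ) + 1)⁻¹ * x)) ((3 + 4 * R) ^ q) := by
  have := Rep.prod hR (range q) (f := fun j x => 1 - ((j : ℝ) + 1)⁻¹ * x) (L := 3 + 4 * R)
    (fun j _ => (Rep.affine _).mono (by
      have h1 : |((j : ℝ) + 1)⁻¹| ≤ 1 := by
        rw [abs_of_nonneg (by positivity)]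
        exact inv_le_one_of_one_le₀ (by linarith [Nat.cast_nonneg (α := ℝ) j])
      nlinarith))
  rwa [card_range] at this

lemma rep_gfun {R m : ℝ} (hR : 0 ≤ R) (hm : 1 ≤ m) (q : ℕ) {r : ℕ} (hr : 1 ≤ r) (s : ℕ) :
    Rep R (gfun q m r s) ((3 + 4 * R) ^ (q + r * s)) := by
  have := (rep_gprod hR q).mul hR ((rep_psi hR hm hr).pow hR s)
  refine this.mono (le_of_eq ?_)
  rw [pow_add, pow_mul]

lemma gfun_zero (q : ℕ) (m : ℝ) {r : ℕ} (hr : 1 ≤ r) (s : ℕ) : gfun q m r s 0 = 1 := by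
  simp [gfun, psi_zero hr]

lemma third_le_exp : (1 / 3 : ℝ) ≤ Real.exp (-1) := by
  rw [Real.exp_neg, one_div]
  exact inv_anti₀ (Real.exp_pos 1) (by linarith [Real.exp_one_lt_d9])

lemma abs_gfun_le {R m Y : ℝ} (hR : 0 ≤ R) (hY : 3 + 4 * R ≤ Real.exp Y) (hm : 0 < m) {q r s : ℕ}
    (hr : 1 ≤ r) (h9 : 9 * m ≤ (r : ℝ) ^ 2 * q) (hs : (q : ℝ) * (1 + Y) ≤ s) {x : ℕ}
    (hx1 : 1 ≤ x) (hxm : (x : ℝ) ≤ m) (hxR : (x : ℝ) ≤ R) :
    |gfun q m r s x| ≤ Real.exp (-q) := by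
  rcases le_or_gt x q with h | h
  · have : ∏ j ∈ range q, (1 - ((j : ℝ) + 1)⁻¹ * x) = 0 := by
      refine prod_eq_zero (i := x - 1) (mem_range.2 (by omega)) ?_
      have h1 : ((x - 1 : ℕ) : ℝ) + 1 = x := by
        rw [Nat.cast_sub hx1]; simp
      have h2 : (x : ℝ) ≠ 0 := by positivity
      rw [h1, inv_mul_cancel₀ h2, sub_self]
    rw [gfun, this, zero_mul, abs_zero]
    exact (Real.exp_pos _).le
  · have h1 := (rep_gprod hR q).bound (x := x) (by rwa [abs_of_nonneg (Nat.cast_nonneg x)])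
    have h2 : |psi m r x| ≤ 1 / 3 := by
      refine abs_psi_le_third hm (Nat.cast_nonneg x) hxm hr (h9.trans ?_)
      exact mul_le_mul_of_nonneg_left (by exact_mod_cast h.le) (sq_nonneg _)
    have h3 : |psi m r x| ^ s ≤ Real.exp (-1) ^ s :=
      pow_le_pow_left₀ (abs_nonneg _) (h2.trans third_le_exp) s
    have h4 : (3 + 4 * R) ^ q ≤ Real.exp Y ^ q := pow_le_pow_left₀ (by positivity) hY q
    rw [gfun, abs_mul, abs_pow]
    refine (mul_le_mul (h1.trans h4) h3 (by positivity) (by positivity)).trans ?_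
    rw [← Real.exp_nat_mul, ← Real.exp_nat_mul, ← Real.exp_add]
    exact Real.exp_le_exp.2 (by linarith)

end Vale.Agent.P368
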