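import Vale.Agent.P368.Poly

/-!
Finite resolutions of the identity indexed by subsets, and their functional calculus.
-/

namespace Vale.Agent.P368

open Finset

set_option linter.unusedSectionVars false

variable {A : Type} [CStarAlgebra A] {ι : Type} [Fintype ι] [DecidableEq ι]

lemma norm_one_le' : ‖(1 : A)‖ ≤ 1 := by
  have h := CStarRing.norm_star_mul_self (x := (1 : A))
  rw [star_one, one_mul] at h
  nlinarith [norm_nonneg (1 : A)]

lemma norm_le_one_of_star_mul {u : A} (h : star u * u = 1) : ‖u‖ ≤ 1 := by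
  have h1 := CStarRing.norm_star_mul_self (x := u)
  rw [h] at h1
  nlinarith [norm_nonneg u, norm_one_le' (A := A)]

lemma norm_le_one_of_proj {p : A} (h1 : star p = p) (h2 : p * p = p) : ‖p‖ ≤ 1 := by
  have h := CStarRing.norm_star_mul_self (x := p)
  rw [h1, h2] at h
  nlinarith [norm_nonneg p]

lemma norm_mul_le_of_right {x y : A} {c : ℝ} (hx : ‖x‖ ≤ c) (hy : ‖y‖ ≤ 1) : ‖x * y‖ ≤ c := by
  refine (norm_mul_le _ _).trans ?_
  nlinarith [norm_nonneg x, norm_nonneg y]

lemma norm_mul_le_of_left {x y : A} {c : ℝ} (hx : ‖x‖ ≤ 1) (hy : ‖y‖ ≤ c) : ‖x * y‖ ≤ c := by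
  refine (norm_mul_le _ _).trans ?_
  nlinarith [norm_nonneg x, norm_nonneg y]

lemma norm_mul_le_mul {x y : A} {c d : ℝ} (hx : ‖x‖ ≤ c) (hy : ‖y‖ ≤ d) : ‖x * y‖ ≤ c * d :=
  (norm_mul_le _ _).trans (mul_le_mul hx hy (norm_nonneg _) ((norm_nonneg _).trans hx))

/-- The cube trick. -/
lemma norm_cube_le (p t : A) (hp : star p = p) (hp1 : ‖p‖ ≤ 1) :
    ‖p * t‖ ^ 3 ≤ ‖p * t * star t * t‖ := by
  set β := ‖p * t‖ with hβ
  have hβ0 : 0 ≤ β := norm_nonneg _
  have hy : star (p * t) = star t * p := by rw [star_mul, hp]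
  have h1 : β * β ≤ ‖t * (star t * p)‖ := by
    have := CStarRing.norm_self_mul_star (x := p * t)
    rw [← this, hy, mul_assoc]
    exact norm_mul_le_of_left hp1 le_rfl
  have h2 : ‖t * (star t * p)‖ * ‖t * (star t * p)‖ ≤ ‖p * t * star t * t‖ * β := by
    have h3 := CStarRing.norm_star_mul_self (x := t * (star t * p))
    rw [← h3]
    have h4 : star (t * (star t * p)) * (t * (star t * p))
        = (p * t * star t * t) * star (p * t) := by
      rw [hy]
      simp only [star_mul, star_star, hp, mul_assoc]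
    rw [h4]
    refine (norm_mul_le _ _).trans ?_
    rw [norm_star]
  rcases hβ0.eq_or_lt with h0 | h0
  · rw [← h0]; simp
  · have h5 : (β * β) * (β * β) ≤ ‖p * t * star t * t‖ * β :=
      (mul_le_mul h1 h1 (by positivity) (norm_nonneg _)).trans h2
    refine le_of_mul_le_mul_right ?_ h0
    nlinarith

/-- A resolution of the identity by orthogonal projections indexed by subsets. -/
structure Res (E : Finset ι → A) : Prop where
  star_eq : ∀ K, star (E K) = E K
  mul_self : ∀ K, E K * E K = E K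
  mul_ne : ∀ K K', K ≠ K' → E K * E K' = 0
  sum_eq : ∑ K, E K = 1

/-- Complex functional calculus. -/
noncomputable def OpC (E : Finset ι → A) (F : Finset ι → ℂ) : A := ∑ K, F K • E K

/-- Real functional calculus. -/
noncomputable def Op (E : Finset ι → A) (F : Finset ι → ℝ) : A := OpC E fun K => (F K : ℂ)

variable {E : Finset ι → A}

lemma Res.opC_mul (hE : Res E) (F G : Finset ι → ℂ) :
    OpC E F * OpC E G = OpC E fun K => F K * G K := by
  unfold OpC
  rw [sum_mul_sum]
  refine sum_congr rfl fun K _ => ?_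
  rw [sum_eq_single K]
  · rw [smul_mul_smul_comm, hE.mul_self]
  · intro K' _ h
    rw [smul_mul_smul_comm, hE.mul_ne K K' h.symm, smul_zero]
  · simp

lemma Res.opC_star (hE : Res E) (F : Finset ι → ℂ) :
    star (OpC E F) = OpC E fun K => star (F K) := by
  unfold OpC
  rw [star_sum]
  refine sum_congr rfl fun K _ => ?_
  rw [star_smul, hE.star_eq]

lemma Res.opC_one (hE : Res E) : OpC E (fun _ => 1) = 1 := by
  simp [OpC, hE.sum_eq]

lemma opC_add (F G : Finset ι → ℂ) : OpC E F + OpC E G = OpC E fun K => F K + G K := by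
  simp [OpC, add_smul, sum_add_distrib]

lemma opC_smul (c : ℂ) (F : Finset ι → ℂ) : c • OpC E F = OpC E fun K => c * F K := by
  simp [OpC, smul_sum, smul_smul]

lemma Res.op_mul (hE : Res E) (F G : Finset ι → ℝ) :
    Op E F * Op E G = Op E fun K => F K * G K := by
  simp [Op, hE.opC_mul]

lemma Res.op_star (hE : Res E) (F : Finset ι → ℝ) : star (Op E F) = Op E F := by
  simp [Op, hE.opC_star]

lemma Res.op_one (hE : Res E) : Op E (fun _ => 1) = 1 := by
  simp [Op, hE.opC_one]

lemma op_add (F G : Finset ι → ℝ) : Op E F + Op E G = Op E fun K => F K + G K := by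
  simp [Op, opC_add]

lemma op_smul (c : ℝ) (F : Finset ι → ℝ) : (c : ℂ) • Op E F = Op E fun K => c * F K := by
  simp [Op, opC_smul]

lemma op_zero : Op E (fun _ => 0) = 0 := by simp [Op, OpC]

lemma op_congr {F G : Finset ι → ℝ} (h : ∀ K, F K = G K) : Op E F = Op E G := by
  rw [funext h]

lemma op_sub (F G : Finset ι → ℝ) : Op E F - Op E G = Op E fun K => F K - G K := by
  rw [sub_eq_iff_eq_add, op_add]
  exact op_congr fun K => by ring

lemma op_sum {κ : Type} (s : Finset κ) (F : κ → Finset ι → ℝ) :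
    ∑ j ∈ s, Op E (F j) = Op E fun K => ∑ j ∈ s, F j K := by
  classical
  induction s using Finset.induction_on with
  | empty => simp [op_zero]
  | insert j s hj ih => simp only [sum_insert hj, ih, op_add]

lemma op_ite (K0 : Finset ι) : Op E (fun K => if K = K0 then 1 else 0) = E K0 := by
  unfold Op OpC
  rw [sum_eq_single K0]
  · simp
  · intro K _ h; simp [h]
  · simp

lemma Res.norm_op_le_one (hE : Res E) {F : Finset ι → ℝ} (hF : ∀ K, |F K| ≤ 1) :
    ‖Op E F‖ ≤ 1 := by
  let u : Finset ι → ℂ := fun K => (F K : ℂ) + (√(1 - F K ^ 2) : ℝ) * Complex.I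
  have hu : ∀ K, star (u K) * u K = 1 := fun K => by
    have h0 : 0 ≤ 1 - F K ^ 2 := by nlinarith [sq_abs (F K), abs_nonneg (F K), hF K]
    have h1 := Real.sq_sqrt h0
    apply Complex.ext
    · simp [u]; nlinarith
    · simp [u]; ring
  have h1 : ‖OpC E u‖ ≤ 1 := by
    refine norm_le_one_of_star_mul ?_
    rw [hE.opC_star, hE.opC_mul]
    simp only [hu, hE.opC_one]
  have h2 : Op E F = (1 / 2 : ℂ) • (OpC E u + star (OpC E u)) := by
    rw [hE.opC_star, opC_add, opC_smul, Op]
    congr 1
    funext K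
    apply Complex.ext
    · simp [u]; ring
    · simp [u]
  rw [h2, norm_smul]
  have h3 := norm_add_le (OpC E u) (star (OpC E u))
  rw [norm_star] at h3
  have h4 : ‖(1 / 2 : ℂ)‖ = 1 / 2 := by simp
  rw [h4]
  linarith

lemma Res.norm_op_le (hE : Res E) {F : Finset ι → ℝ} {c : ℝ} (hF : ∀ K, |F K| ≤ c) :
    ‖Op E F‖ ≤ c := by
  have hc : 0 ≤ c := (abs_nonneg _).trans (hF ∅)
  rcases hc.eq_or_lt with h0 | h0
  · have : Op E F = 0 := by
      rw [← op_zero (E := E)]
      exact op_congr fun K => abs_nonpos_iff.1 (h0 ▸ hF K)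
    rw [this, norm_zero]; exact hc
  · have h1 : Op E F = (c : ℂ) • Op E fun K => F K / c := by
      rw [op_smul]
      exact op_congr fun K => by field_simp
    have h2 : ‖Op E fun K => F K / c‖ ≤ 1 := hE.norm_op_le_one fun K => by
      rw [abs_div, abs_of_pos h0, div_le_one h0]; exact hF K
    rw [h1, norm_smul, Complex.norm_real, Real.norm_eq_abs, abs_of_pos h0]
    nlinarith

lemma Res.conj (hE : Res E) {U : A} (h1 : star U * U = 1) (h2 : U * star U = 1) :
    Res fun K => U * E K * star U where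
  star_eq K := by simp only [star_mul, star_star, hE.star_eq, mul_assoc]
  mul_self K := by
    rw [show U * E K * star U * (U * E K * star U) = U * E K * (star U * U) * E K * star U by
      simp only [mul_assoc], h1, mul_one, mul_assoc U, hE.mul_self]
  mul_ne K K' h := by
    rw [show U * E K * star U * (U * E K' * star U) = U * E K * (star U * U) * E K' * star U by
      simp only [mul_assoc], h1, mul_one, mul_assoc U, hE.mul_ne K K' h, mul_zero, zero_mul]
  sum_eq := by rw [← sum_mul, ← mul_sum, hE.sum_eq, mul_one, h2]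

lemma op_conj (U : A) (F : Finset ι → ℝ) :
    Op (fun K => U * E K * star U) F = U * Op E F * star U := by
  simp [Op, OpC, mul_sum, sum_mul]

/-- Functions of the count. -/
noncomputable def cnt (E : Finset ι → A) (f : ℝ → ℝ) : A := Op E fun K => f K.card

/-- Count at least `b`. -/
noncomputable def up (E : Finset ι → A) (b : ℝ) : A := cnt E fun x => if b ≤ x then 1 else 0

/-- Count at most `a`. -/
noncomputable def low (E : Finset ι → A) (a : ℝ) : A := cnt E fun x => if x ≤ a then 1 else 0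

/-- All sites of `J` excited. -/
noncomputable def sub (E : Finset ι → A) (J : Finset ι) : A := Op E fun K => if J ⊆ K then 1 else 0

lemma Res.cnt_mul (hE : Res E) (f g : ℝ → ℝ) : cnt E f * cnt E g = cnt E fun x => f x * g x :=
  hE.op_mul _ _

lemma cnt_congr {f g : ℝ → ℝ} (h : ∀ n : ℕ, n ≤ Fintype.card ι → f n = g n) :
    cnt E f = cnt E g := op_congr fun K => h _ (card_le_univ K)

lemma Res.norm_cnt_le (hE : Res E) {f : ℝ → ℝ} {c : ℝ}
    (h : ∀ n : ℕ, n ≤ Fintype.card ι → |f n| ≤ c) : ‖cnt E f‖ ≤ c :=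
  hE.norm_op_le fun K => h _ (card_le_univ K)

lemma Res.norm_up_le (hE : Res E) (b : ℝ) : ‖up E b‖ ≤ 1 :=
  hE.norm_cnt_le fun n _ => by split_ifs <;> simp

lemma Res.norm_low_le (hE : Res E) (a : ℝ) : ‖low E a‖ ≤ 1 :=
  hE.norm_cnt_le fun n _ => by split_ifs <;> simp

lemma Res.norm_sub_le (hE : Res E) (J : Finset ι) : ‖sub E J‖ ≤ 1 :=
  hE.norm_op_le fun K => by split_ifs <;> simp

lemma Res.norm_le (hE : Res E) (K : Finset ι) : ‖E K‖ ≤ 1 :=
  norm_le_one_of_proj (hE.star_eq K) (hE.mul_self K)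

lemma Res.up_eq_zero {b : ℝ} (hb : (Fintype.card ι : ℝ) < b) : up E b = 0 := by
  rw [← op_zero (E := E)]
  refine op_congr fun K => if_neg ?_
  have : (K.card : ℝ) ≤ Fintype.card ι := by exact_mod_cast card_le_univ K
  linarith

lemma Res.up_mul_up (hE : Res E) {b b' : ℝ} (h : b ≤ b') : up E b' * up E b = up E b' := by
  rw [up, up, hE.cnt_mul]
  refine cnt_congr fun n _ => ?_
  by_cases h1 : b' ≤ n
  · simp [h1, h.trans h1]
  · simp [h1]

lemma Res.up_mono (hE : Res E) {b b' : ℝ} (h : b ≤ b') (X : A) : ‖up E b' * X‖ ≤ ‖up E b * X‖ := by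
  rw [← hE.up_mul_up h, mul_assoc]
  exact norm_mul_le_of_left (hE.norm_up_le _) le_rfl

/-- Composition of two localized contractions. -/
lemma Res.comp (hE : Res E) {a b c e1 e2 : ℝ} {X Y : A} (hX : ‖X‖ ≤ 1) (hY : ‖Y‖ ≤ 1)
    (h1 : ‖up E c * X * low E b‖ ≤ e1) (h2 : ‖up E b * Y * low E a‖ ≤ e2) :
    ‖up E c * (X * Y) * low E a‖ ≤ e1 + e2 := by
  have h3 : low E b * (cnt E fun x => if b ≤ x then 0 else 1) + up E b = 1 := by
    rw [low, up, hE.cnt_mul, cnt, cnt, op_add, ← hE.op_one]
    refine op_congr fun K => ?_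
    by_cases h : b ≤ K.card
    · simp [h]
    · simp [h, (not_le.1 h).le]
  have h4 : up E c * (X * Y) * low E a
      = (up E c * X * low E b) * ((cnt E fun x => if b ≤ x then 0 else 1) * Y * low E a)
        + (up E c * X) * (up E b * Y * low E a) := by
    calc up E c * (X * Y) * low E a = up E c * X * 1 * Y * low E a := by
          simp only [mul_assoc, one_mul]
      _ = _ := by rw [← h3]; simp only [mul_add, add_mul, mul_assoc]
  rw [h4]
  refine (norm_add_le _ _).trans (add_le_add ?_ ?_)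
  · refine norm_mul_le_of_right h1 (norm_mul_le_of_left (norm_mul_le_of_left ?_ hY)
      (hE.norm_low_le a))
    exact hE.norm_cnt_le fun n _ => by split_ifs <;> simp
  · exact norm_mul_le_of_left (norm_mul_le_of_left (hE.norm_up_le c) hX) h2

lemma Res.sub_empty (hE : Res E) : sub E ∅ = 1 := by
  rw [← hE.op_one]
  exact op_congr fun K => by simp

lemma Res.sub_mul_cnt_id (hE : Res E) (J : Finset ι) (f : ℝ → ℝ) :
    sub E J * cnt E (fun x => x * f x) = ∑ j, sub E (insert j J) * cnt E f := by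
  simp only [sub, cnt, hE.op_mul, op_sum]
  refine op_congr fun K => ?_
  by_cases h : J ⊆ K
  · have : ∀ j, (insert j J ⊆ K) ↔ j ∈ K := fun j => by simp [insert_subset_iff, h]
    simp only [h, this, if_true, one_mul, ← sum_mul]
    congr 1
    simp
  · have : ∀ j, ¬ (insert j J ⊆ K) := fun j hj => h ((subset_insert _ _).trans hj)
    simp [h, this]

/-- Localization passes from the products of site projections to polynomials in the count. -/
lemma Res.rep_local (hE : Res E) {P Q : A} {ε : ℝ} (hε : 0 ≤ ε)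
    (h : ∀ J, ‖P * sub E J * Q‖ ≤ 9 ^ J.card * ε) {f : ℝ → ℝ} {L : ℝ}
    (hf : Rep (9 * Fintype.card ι) f L) :
    ∀ J, ‖P * (sub E J * cnt E f) * Q‖ ≤ 9 ^ J.card * (L * ε) := by
  induction hf with
  | const c =>
    intro J
    have : cnt E (fun _ => c) = (c : ℂ) • 1 := by
      rw [← hE.op_one, op_smul]; exact op_congr fun K => by simp
    rw [this, mul_smul_comm, mul_smul_comm, smul_mul_assoc, mul_one, norm_smul,
      Complex.norm_real, Real.norm_eq_abs]
    have := mul_le_mul_of_nonneg_left (h J) (abs_nonneg c)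
    linarith
  | @idmul f L hf ih =>
    intro J
    have hL : 0 ≤ L := hf.nonneg (by positivity)
    rw [hE.sub_mul_cnt_id, mul_sum, sum_mul]
    refine (norm_sum_le _ _).trans ?_
    have h1 : ∀ j ∈ (univ : Finset ι), ‖P * (sub E (insert j J) * cnt E f) * Q‖
        ≤ 9 ^ (J.card + 1) * (L * ε) := fun j _ =>
      (ih _).trans (mul_le_mul_of_nonneg_right
        (pow_le_pow_right₀ (by norm_num) (card_insert_le _ _)) (by positivity))
    refine (Finset.sum_le_card_nsmul _ _ _ h1).trans (le_of_eq ?_)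
    rw [card_univ, nsmul_eq_mul]; ring
  | @add f g L L' _ _ ih1 ih2 =>
    intro J
    have : cnt E (fun x => f x + g x) = cnt E f + cnt E g := (op_add _ _).symm
    rw [this, mul_add, mul_add, add_mul]
    refine (norm_add_le _ _).trans ((add_le_add (ih1 J) (ih2 J)).trans (le_of_eq (by ring)))
  | mono _ hle ih =>
    intro J
    exact (ih J).trans (mul_le_mul_of_nonneg_left (mul_le_mul_of_nonneg_right hle hε)
      (by positivity))

lemma Res.rep_local' (hE : Res E) {P Q : A} {ε : ℝ} (hε : 0 ≤ ε)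
    (h : ∀ J, ‖P * sub E J * Q‖ ≤ 9 ^ J.card * ε) {f : ℝ → ℝ} {L : ℝ}
    (hf : Rep (9 * Fintype.card ι) f L) : ‖P * cnt E f * Q‖ ≤ L * ε := by
  have := hE.rep_local hε h hf ∅
  rwa [hE.sub_empty, one_mul, card_empty, pow_zero, one_mul] at this

lemma Res.norm_cnt_rep (hE : Res E) {f : ℝ → ℝ} {L : ℝ} (hf : Rep (9 * Fintype.card ι) f L) :
    ‖cnt E f‖ ≤ L :=
  hE.norm_cnt_le fun n hn => hf.bound (by
    have : (n : ℝ) ≤ Fintype.card ι := by exact_mod_cast hn
    rw [abs_of_nonneg (Nat.cast_nonneg n)]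
    linarith [Nat.cast_nonneg (α := ℝ) n])

end Vale.Agent.P368
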