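import Vale.Agent.P368.Res

/-!
The scale-descent step and the abstract localization theorem.
-/

namespace Vale.Agent.P368

open Finset

set_option linter.unusedSectionVars false

variable {A : Type} [CStarAlgebra A] {ι : Type} [Fintype ι] [DecidableEq ι]
variable {E F : Finset ι → A}

lemma Res.empty_eq_cnt (F : Finset ι → A) :
    F ∅ = cnt F fun x => if x = 0 then 1 else 0 := by
  rw [← op_ite (E := F) ∅]
  refine op_congr fun K => ?_
  simp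

theorem core (hE : Res E) (hF : Res F) {a m b e E0 d1 d2 e0 e1 e2 Lf Lg : ℝ} {f g : ℝ → ℝ}
    (ham : a < m) (he : 0 ≤ e) (hE0 : 0 < E0) (hd1 : 0 ≤ d1) (hd2 : 0 ≤ d2) (he1 : 0 ≤ e1)
    (he2 : 0 ≤ e2)
    (hf : Rep (9 * Fintype.card ι) (fun x => f x * f x) Lf)
    (hf1 : ∀ n : ℕ, (n : ℝ) ≤ a → |f n| ≤ 1)
    (hf2 : ∀ n : ℕ, a < n → (n : ℝ) < m → |f n * f n| ≤ d1)
    (hg : Rep (9 * Fintype.card ι) g Lg) (hg0 : g 0 = 1)
    (hg1 : ∀ n : ℕ, 1 ≤ n → n ≤ Fintype.card ι → (n : ℝ) < E0 → |g n| ≤ d2)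
    (H0 : ‖up E m * F ∅ * low E a‖ ≤ e0)
    (H1 : ∀ J, ‖up E b * sub F J * low E a‖ ≤ 9 ^ J.card * e1)
    (H2 : ∀ I, ‖up F E0 * sub E I * low F e‖ ≤ 9 ^ I.card * e2) :
    ‖up E b * (F ∅ * cnt E fun x => if x ≤ a then f x else 0)‖ ^ 3
      ≤ (1 + d2 + Lg) * (d1 + Lf * e0) + d2 + Lg * (Lf * e2) + Lg * e1 := by
  have hN : (0 : ℝ) ≤ 9 * Fintype.card ι := by positivity
  have hLf := hf.nonneg hN
  have hLg := hg.nonneg hN
  have he0 : 0 ≤ e0 := (norm_nonneg _).trans H0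
  set P := F ∅ with hP
  set χ := cnt E fun x => if x ≤ a then f x else 0 with hχ
  set φ := cnt E fun x => f x * f x with hφ
  set G := cnt F g with hG
  set U := up E b with hU
  have hU1 : ‖U‖ ≤ 1 := hE.norm_up_le b
  have hP1 : ‖P‖ ≤ 1 := hF.norm_le ∅
  have hχ1 : ‖χ‖ ≤ 1 := hE.norm_cnt_le fun n _ => by
    split_ifs with h
    · exact hf1 n h
    · simp
  have hY1 : ‖P * χ‖ ≤ 1 := norm_mul_le_of_left hP1 hχ1
  have hG1 : ‖G‖ ≤ Lg := hF.norm_cnt_rep hg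
  have hφ1 : ‖φ‖ ≤ Lf := hE.norm_cnt_rep hf
  have hlowχ : low E a * χ = χ := by
    rw [low, hχ, hE.cnt_mul]
    refine cnt_congr fun n _ => ?_
    split_ifs <;> simp
  have hcube := norm_cube_le U (P * χ) (hE.op_star _) hU1
  have hTTT : U * (P * χ) * star (P * χ) * (P * χ) = U * P * (χ * χ) * (P * χ) := by
    have h1 : star χ = χ := hE.op_star _
    have h2 : star P = P := hF.star_eq ∅
    have h3 : P * P = P := hF.mul_self ∅
    rw [star_mul, h1, h2]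
    calc U * (P * χ) * (χ * P) * (P * χ) = U * P * (χ * χ) * ((P * P) * χ) := by
          simp only [mul_assoc]
      _ = _ := by rw [h3]
  rw [hTTT] at hcube
  refine hcube.trans ?_
  -- the difference between the polynomial and the truncated polynomial
  set D := φ - χ * χ with hD
  have hDsplit : D = (cnt E fun x => if a < x ∧ x < m then f x * f x else 0) + φ * up E m := by
    rw [hD, hχ, hφ, up, hE.cnt_mul, hE.cnt_mul, cnt, cnt, cnt, cnt, op_sub, op_add]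
    refine op_congr fun K => ?_
    by_cases h1 : (K.card : ℝ) ≤ a
    · have h2 : ¬ m ≤ K.card := by linarith
      simp [h1, h2, not_lt.2 h1]
    · by_cases h2 : m ≤ K.card
      · simp [h1, h2, not_lt.2 h2]
      · simp [h1, h2, not_le.1 h1, not_le.1 h2]
  have hδ : ‖D * (P * χ)‖ ≤ d1 + Lf * e0 := by
    rw [hDsplit, add_mul]
    refine (norm_add_le _ _).trans (add_le_add (norm_mul_le_of_right ?_ hY1) ?_)
    · refine hE.norm_cnt_le fun n _ => ?_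
      split_ifs with h
      · exact hf2 n h.1 h.2
      · simpa using hd1
    · have : φ * up E m * (P * χ) = φ * ((up E m * P * low E a) * χ) := by
        conv_lhs => rw [← hlowχ]
        simp only [mul_assoc]
      rw [this]
      exact norm_mul_le_mul hφ1 (norm_mul_le_of_right H0 hχ1)
  set δ := d1 + Lf * e0 with hδdef
  have hδ0 : 0 ≤ δ := (norm_nonneg _).trans hδ
  have hφY : ‖φ * (P * χ)‖ ≤ 1 + δ := by
    have : φ * (P * χ) = χ * χ * (P * χ) + D * (P * χ) := by rw [hD]; noncomm_ring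
    rw [this]
    exact (norm_add_le _ _).trans (add_le_add
      (norm_mul_le_of_left (norm_mul_le_of_left hχ1 hχ1) hY1) hδ)
  have hGP : G - P = (cnt F fun x => if x < E0 then g x - (if x = 0 then 1 else 0) else 0)
      + G * up F E0 := by
    rw [hG, hP, Res.empty_eq_cnt F, up, hF.cnt_mul, cnt, cnt, cnt, cnt, op_sub, op_add]
    refine op_congr fun K => ?_
    by_cases h1 : (K.card : ℝ) < E0
    · simp [h1, not_le.2 h1]
    · have h2 : (K.card : ℝ) ≠ 0 := by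
        intro h; rw [h] at h1; exact h1 hE0
      simp only [h1, not_lt.1 h1, h2, if_true, if_false]
      ring
  have hlowP : low F e * P = P := by
    rw [hP, Res.empty_eq_cnt F, low, hF.cnt_mul]
    refine cnt_congr fun n _ => ?_
    by_cases h : (n : ℝ) = 0
    · simp [h, he]
    · simp [h]
  have hB : ‖(G - P) * (φ * (P * χ))‖ ≤ d2 * (1 + δ) + Lg * (Lf * e2) := by
    rw [hGP, add_mul]
    refine (norm_add_le _ _).trans (add_le_add (norm_mul_le_mul ?_ hφY) ?_)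
    · refine hF.norm_cnt_le fun n hn => ?_
      split_ifs with h h'
      · rw [h', hg0]; simpa using hd2
      · rw [sub_zero]
        refine hg1 n ?_ hn h
        rcases Nat.eq_zero_or_pos n with h0 | h0
        · exact absurd (by simp [h0]) h'
        · exact h0
      · simpa using hd2
    · have : G * up F E0 * (φ * (P * χ)) = G * ((up F E0 * φ * low F e) * (P * χ)) := by
        conv_lhs => rw [← hlowP]
        simp only [mul_assoc]
      rw [this]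
      exact norm_mul_le_mul hG1 (norm_mul_le_of_right (hE.rep_local' he2 H2 hf) hY1)
  have hC : ‖U * G * (χ * χ) * (P * χ)‖ ≤ Lg * e1 := by
    have : U * G * (χ * χ) * (P * χ) = (U * G * low E a) * (χ * χ * (P * χ)) := by
      calc U * G * (χ * χ) * (P * χ) = U * G * ((low E a * χ) * χ) * (P * χ) := by rw [hlowχ]
        _ = _ := by simp only [mul_assoc]
    rw [this]
    exact norm_mul_le_of_right (hF.rep_local' he1 H1 hg)
      (norm_mul_le_of_left (norm_mul_le_of_left hχ1 hχ1) hY1)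
  have hid : U * P * (χ * χ) * (P * χ) = U * G * (χ * χ) * (P * χ) + U * (G * (D * (P * χ)))
      - U * ((G - P) * (φ * (P * χ))) - U * P * (D * (P * χ)) := by
    rw [hD]; noncomm_ring
  rw [hid]
  have n1 : ‖U * (G * (D * (P * χ)))‖ ≤ Lg * δ := norm_mul_le_of_left hU1 (norm_mul_le_mul hG1 hδ)
  have n2 := norm_mul_le_of_left hU1 hB
  have n3 : ‖U * P * (D * (P * χ))‖ ≤ δ := norm_mul_le_of_left (norm_mul_le_of_left hU1 hP1) hδ
  have n4 := norm_sub_le (U * G * (χ * χ) * (P * χ) + U * (G * (D * (P * χ)))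
      - U * ((G - P) * (φ * (P * χ)))) (U * P * (D * (P * χ)))
  have n5 := norm_sub_le (U * G * (χ * χ) * (P * χ) + U * (G * (D * (P * χ))))
      (U * ((G - P) * (φ * (P * χ))))
  have n6 := norm_add_le (U * G * (χ * χ) * (P * χ)) (U * (G * (D * (P * χ))))
  nlinarith

lemma ceil_le_mul {x c : ℝ} (hx : 1 ≤ x) (hc : 0 ≤ c) : (⌈c * x⌉₊ : ℝ) ≤ (c + 1) * x := by
  have := Nat.ceil_lt_add_one (a := c * x) (by positivity)
  nlinarith

lemma inv_pow_le_exp {t y : ℝ} (ht0 : 0 ≤ t) (ht : t ≤ 1 / 2) (hy : 1 - t ≤ y) (s : ℕ) :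
    |(y ^ s)⁻¹| ≤ Real.exp (2 * t * s) := by
  have hy0 : 0 < y := by linarith
  have h1 : y⁻¹ ≤ Real.exp (2 * t) := by
    have h2 := Real.add_one_le_exp (2 * t)
    refine le_trans ?_ h2
    rw [inv_le_comm₀ hy0 (by linarith)]
    refine le_trans ?_ hy
    rw [inv_le_iff_one_le_mul₀ (by linarith)]
    nlinarith
  rw [abs_of_pos (by positivity), ← inv_pow, mul_comm (2 * t), Real.exp_nat_mul]
  exact pow_le_pow_left₀ (by positivity) h1 s

lemma params {κ k Y w : ℝ} (hY : 10 ^ 6 ≤ Y) (hκ : 1 ≤ κ) (hk : 1 ≤ k)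
    (hw : κ ^ 2 * k * Y ^ 6 ≤ w) : 1 ≤ w ∧ 10 ^ 6 * κ ≤ w ^ 2 ∧ ∃ r r' B : ℕ,
      3 * w ≤ r ∧ (r : ℝ) ≤ 4 * w ∧ (3 : ℝ) ≤ r' ∧ 3 * (Y ^ 2 * r') ≤ B ∧
      36 * (κ * k * Y * r * B) ≤ (r' : ℝ) ^ 2 ∧
      6 * (4 * (r * Y) * B) ≤ w ^ 2 * κ * k * Y ^ 7 ∧ 384 * κ * B ≤ w ^ 2 := by
  have hY1 : 1 ≤ Y := by linarith
  have hY0 : 0 < Y := by linarith
  have hκ0 : 0 < κ := by linarith
  have hk0 : 0 < k := by linarith
  have hY6 : Y ≤ Y ^ 6 := le_self_pow₀ hY1 (by norm_num)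
  have hκ2 : κ ≤ κ ^ 2 := le_self_pow₀ hκ (by norm_num)
  have hκkY : κ * Y ≤ κ ^ 2 * k * Y ^ 6 := by
    have : κ ≤ κ ^ 2 * k := by nlinarith
    exact mul_le_mul this hY6 hY0.le (by positivity)
  have hwκ : κ * Y ≤ w := hκkY.trans hw
  have hw1 : 1 ≤ w := by nlinarith
  have hw0 : 0 < w := by linarith
  have hw2 : 10 ^ 6 * κ ≤ w ^ 2 := by nlinarith
  refine ⟨hw1, hw2, ?_⟩
  obtain ⟨r, hr1, hr2⟩ : ∃ r : ℕ, 3 * w ≤ r ∧ (r : ℝ) ≤ 4 * w :=
    ⟨⌈3 * w⌉₊, Nat.le_ceil _, (ceil_le_mul hw1 (by norm_num)).trans (by norm_num)⟩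
  have hr3 : (1 : ℝ) ≤ r := by linarith
  have hB1 : 1 ≤ κ * k * Y ^ 3 * r := by
    have h1 : 1 ≤ Y ^ 3 := one_le_pow₀ hY1
    exact one_le_mul_of_one_le_of_one_le (one_le_mul_of_one_le_of_one_le
      (one_le_mul_of_one_le_of_one_le hκ hk) h1) hr3
  obtain ⟨r', hr'1, hr'2⟩ : ∃ r' : ℕ, 144 * (κ * k * Y ^ 3 * r) ≤ r' ∧
      (r' : ℝ) ≤ 145 * (κ * k * Y ^ 3 * r) :=
    ⟨⌈144 * (κ * k * Y ^ 3 * r)⌉₊, Nat.le_ceil _,
      (ceil_le_mul hB1 (by norm_num)).trans (by norm_num)⟩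
  have hr'3 : (3 : ℝ) ≤ r' := by linarith
  have hB2 : 1 ≤ Y ^ 2 * r' := one_le_mul_of_one_le_of_one_le (one_le_pow₀ hY1) (by linarith)
  obtain ⟨B, hB3, hB4⟩ : ∃ B : ℕ, 3 * (Y ^ 2 * r') ≤ B ∧ (B : ℝ) ≤ 4 * (Y ^ 2 * r') :=
    ⟨⌈3 * (Y ^ 2 * r')⌉₊, Nat.le_ceil _, (ceil_le_mul hB2 (by norm_num)).trans (by norm_num)⟩
  have hBle : (B : ℝ) ≤ 2320 * (κ * k * Y ^ 5 * w) := by
    have h1 : Y ^ 2 * r' ≤ Y ^ 2 * (145 * (κ * k * Y ^ 3 * r)) :=
      mul_le_mul_of_nonneg_left hr'2 (by positivity)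
    have h2 : κ * k * Y ^ 5 * r ≤ κ * k * Y ^ 5 * (4 * w) :=
      mul_le_mul_of_nonneg_left hr2 (by positivity)
    linarith
  refine ⟨r, r', B, hr1, hr2, hr'3, hB3, ?_, ?_, ?_⟩
  · have h1 : (κ * k * Y * r) * B ≤ (κ * k * Y * r) * (4 * (Y ^ 2 * r')) :=
      mul_le_mul_of_nonneg_left hB4 (by positivity)
    have h2 : 144 * (κ * k * Y ^ 3 * r) * r' ≤ r' * r' :=
      mul_le_mul_of_nonneg_right hr'1 (by positivity)
    linarith
  · have h1 : (r : ℝ) * Y * B ≤ (4 * w * Y) * (2320 * (κ * k * Y ^ 5 * w)) :=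
      mul_le_mul (mul_le_mul_of_nonneg_right hr2 hY0.le) hBle (by positivity) (by positivity)
    have h2 : 0 ≤ w ^ 2 * κ * k * Y ^ 6 := by positivity
    have h3 : w ^ 2 * κ * k * Y ^ 6 * 10 ^ 6 ≤ w ^ 2 * κ * k * Y ^ 6 * Y :=
      mul_le_mul_of_nonneg_left hY h2
    linarith
  · have h2 : 384 * κ * B ≤ 384 * κ * (2320 * (κ * k * Y ^ 5 * w)) :=
      mul_le_mul_of_nonneg_left hBle (by positivity)
    have h3 : κ ^ 2 * k * Y ^ 5 * 10 ^ 6 ≤ κ ^ 2 * k * Y ^ 5 * Y :=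
      mul_le_mul_of_nonneg_left hY (by positivity)
    have h4 : κ ^ 2 * k * Y ^ 5 * 10 ^ 6 * w ≤ w * w :=
      mul_le_mul_of_nonneg_right (by linarith) hw0.le
    have h5 : 0 ≤ κ ^ 2 * k * Y ^ 5 * w := by positivity
    linarith

lemma err_le {s q t μ u v : ℝ} (hs0 : 0 ≤ s) (hq : 0 ≤ q) (hqs : q ≤ s) (hst : s ≤ t)
    (hμ : 4 * t ≤ μ) (hu : 4 * t ≤ u) (hv : 4 * t ≤ v) :
    (1 + Real.exp (-q) + Real.exp s) * (Real.exp (-(2 * s))
      + Real.exp (2 * t) * (5 * Real.exp (-μ))) + Real.exp (-q)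
      + Real.exp s * (Real.exp (2 * t) * (15 * Real.exp (-u)))
      + Real.exp s * (15 * Real.exp (-v)) ≤ 64 * Real.exp (-q) := by
  have x1 : Real.exp s * Real.exp (-(2 * s)) ≤ Real.exp (-q) := by
    rw [← Real.exp_add]; exact Real.exp_le_exp.2 (by linarith)
  have x2 : Real.exp s * (Real.exp (2 * t) * Real.exp (-μ)) ≤ Real.exp (-q) := by
    rw [← Real.exp_add, ← Real.exp_add]; exact Real.exp_le_exp.2 (by linarith)
  have x3 : Real.exp s * (Real.exp (2 * t) * Real.exp (-u)) ≤ Real.exp (-q) := by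
    rw [← Real.exp_add, ← Real.exp_add]; exact Real.exp_le_exp.2 (by linarith)
  have x4 : Real.exp s * Real.exp (-v) ≤ Real.exp (-q) := by
    rw [← Real.exp_add]; exact Real.exp_le_exp.2 (by linarith)
  have x5 : Real.exp (-q) ≤ 1 := Real.exp_le_one_iff.2 (by linarith)
  have x6 : 1 ≤ Real.exp s := Real.one_le_exp hs0
  have x7 : (1 + Real.exp (-q) + Real.exp s) * (Real.exp (-(2 * s))
      + Real.exp (2 * t) * (5 * Real.exp (-μ)))
      ≤ (3 * Real.exp s) * (Real.exp (-(2 * s)) + Real.exp (2 * t) * (5 * Real.exp (-μ))) :=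
    mul_le_mul_of_nonneg_right (by linarith) (by positivity)
  have x8 := Real.exp_pos (-q)
  linarith

lemma params2 {κ k Y w a μ r r' B q : ℝ} (hY1 : 1 ≤ Y) (hκ : 1 ≤ κ) (hk : 1 ≤ k)
    (hw2 : 2 ≤ w ^ 2) (ha1 : 1 ≤ a) (hr3 : 1 ≤ r) (hr'3 : 3 ≤ r')
    (hB3 : 3 * (Y ^ 2 * r') ≤ B) (hB4 : 36 * (κ * k * Y * r * B) ≤ r' ^ 2)
    (hq3 : 2 ≤ q * Y) (hq4 : 1 ≤ q) (hq1 : q * (4 * (r * Y) * B) ≤ μ) :
    q ≤ B * q ∧ 4 * (r * Y * (B * q)) ≤ μ ∧ B * q ≤ r * Y * (B * q) ∧ a < w ^ 2 * a ∧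
      1 ≤ q * r' ^ 2 / 9 ∧ 4 * (r * Y * (B * q)) ≤ q * r' ^ 2 / 9 / κ / k ∧
      ∃ s' : ℕ, q * (1 + Y) ≤ s' ∧ (q + r' * s') * Y ≤ B * q := by
  have hY0 : 0 < Y := by linarith
  have hκ0 : 0 < κ := by linarith
  have hk0 : 0 < k := by linarith
  have h3 : 3 * Y ≤ Y ^ 2 * r' := by nlinarith
  have hB5 : 1 ≤ B := by linarith
  have hrY : 1 ≤ r * Y := one_le_mul_of_one_le_of_one_le hr3 hY1
  have hBq : 0 ≤ B * q := by positivity
  refine ⟨le_mul_of_one_le_left (by linarith) hB5, by linarith,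
    le_mul_of_one_le_left hBq hrY, by nlinarith, by nlinarith, ?_, ⌈q * (1 + Y)⌉₊,
    Nat.le_ceil _, ?_⟩
  · rw [le_div_iff₀ hk0, le_div_iff₀ hκ0]
    have h1 : 36 * (κ * k * Y * r * B) * q ≤ r' ^ 2 * q :=
      mul_le_mul_of_nonneg_right hB4 (by positivity)
    linarith
  · have h := Nat.ceil_lt_add_one (a := q * (1 + Y)) (by positivity)
    have hqY : q ≤ q * Y := le_mul_of_one_le_right (by linarith) hY1
    have h0 : (⌈q * (1 + Y)⌉₊ : ℝ) ≤ 5 / 2 * (q * Y) := by linarith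
    have h1 : r' * ⌈q * (1 + Y)⌉₊ * Y ≤ r' * (5 / 2 * (q * Y)) * Y :=
      mul_le_mul_of_nonneg_right (mul_le_mul_of_nonneg_left h0 (by positivity)) hY0.le
    have h2 : 3 * (Y ^ 2 * r') * q ≤ B * q := mul_le_mul_of_nonneg_right hB3 (by positivity)
    have h4 : q * (3 * Y) ≤ q * (Y ^ 2 * r') := mul_le_mul_of_nonneg_left h3 (by positivity)
    have h5 : 0 ≤ q * Y := by positivity
    linarith

theorem step_beta (hE : Res E) (hF : Res F) {κ k Y w : ℝ} (hY1 : 1 ≤ Y) (hκ : 1 ≤ κ) (hk : 1 ≤ k)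
    (hN : 3 + 4 * (9 * (Fintype.card ι : ℝ)) ≤ Real.exp Y) (hw2 : 2 ≤ w ^ 2) (hw0 : 0 < w)
    (H1 : ∀ J a, 0 ≤ a → ‖up E (κ * a) * sub F J * low E a‖
      ≤ 9 ^ J.card * (15 * Real.exp (-(a / k))))
    (H2 : ∀ I a, 0 ≤ a → ‖up F (κ * a) * sub E I * low F a‖
      ≤ 9 ^ I.card * (15 * Real.exp (-(a / k))))
    {a μ : ℝ} (ha1 : 1 ≤ a) (hμ : μ ≤ a / k)
    (hS : ‖up E (w ^ 2 * a) * F ∅ * low E a‖ ≤ 5 * Real.exp (-μ))
    {r r' B q : ℕ} (hr1 : 3 * w ≤ r) (hr3 : (1 : ℝ) ≤ r) (hr'3 : (3 : ℝ) ≤ r')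
    (hB3 : 3 * (Y ^ 2 * r') ≤ B) (hB4 : 36 * (κ * k * Y * r * B) ≤ (r' : ℝ) ^ 2)
    (hq3 : (2 : ℝ) ≤ q * Y) (hq4 : (1 : ℝ) ≤ q) (hq1 : (q : ℝ) * (4 * (r * Y) * B) ≤ μ) :
    ‖up E (κ * a) * (F ∅ * cnt E fun x => if x ≤ a then psi (w ^ 2 * a) r x ^ (B * q) else 0)‖ ^ 3
      ≤ 64 * Real.exp (-q) := by
  have hY0 : 0 < Y := by linarith
  have hκ0 : 0 < κ := by linarith
  have hk0 : 0 < k := by linarith
  have ha : 0 < a := by linarith
  have hR : (0 : ℝ) ≤ 9 * Fintype.card ι := by positivity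
  obtain ⟨hqs, hμs, hsrY, ham, hE01, hE0s, s', hs'1, hs'2⟩ :=
    params2 hY1 hκ hk hw2 ha1 hr3 hr'3 hB3 hB4 hq3 hq4 hq1
  obtain ⟨s, hs⟩ : ∃ s : ℕ, s = B * q := ⟨_, rfl⟩
  rw [← hs]
  have hsR : (B : ℝ) * q = s := by rw [hs]; push_cast; ring
  rw [hsR] at hqs hμs hsrY hE0s hs'2
  have hs0 : (0 : ℝ) ≤ s := by positivity
  obtain ⟨m, hm⟩ : ∃ m : ℝ, m = w ^ 2 * a := ⟨_, rfl⟩
  rw [← hm] at hS ham ⊢
  have hm1 : 1 ≤ m := by linarith
  have hm0 : 0 < m := by linarith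
  obtain ⟨E0, hE0⟩ : ∃ E0 : ℝ, E0 = q * r' ^ 2 / 9 := ⟨_, rfl⟩
  rw [← hE0] at hE01 hE0s
  have hrn : 1 ≤ r := by exact_mod_cast hr3
  have hr'n : 1 ≤ r' := by
    have : (1 : ℝ) ≤ r' := by linarith
    exact_mod_cast this
  have hΓ : (0 : ℝ) ≤ 3 + 4 * (9 * Fintype.card ι) := by positivity
  have hf : Rep (9 * Fintype.card ι) (fun x => psi m r x ^ s * psi m r x ^ s)
      (Real.exp (2 * (r * Y * s))) := by
    have h1 := (rep_psi hR hm1 hrn).pow hR s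
    refine (h1.mul hR h1).mono ?_
    rw [← pow_mul, ← pow_add]
    refine (pow_le_pow_left₀ hΓ hN _).trans (le_of_eq ?_)
    rw [← Real.exp_nat_mul]
    congr 1
    push_cast; ring
  have hg : Rep (9 * Fintype.card ι) (gfun q E0 r' s') (Real.exp s) := by
    refine (rep_gfun hR hE01 q hr'n s').mono ((pow_le_pow_left₀ hΓ hN _).trans ?_)
    rw [← Real.exp_nat_mul]
    refine Real.exp_le_exp.2 ?_
    push_cast
    exact hs'2
  have hcore := core hE hF (a := a) (m := m) (b := κ * a) (e := E0 / κ) (E0 := E0)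
    (d1 := Real.exp (-(2 * s))) (d2 := Real.exp (-q)) (e0 := 5 * Real.exp (-μ))
    (e1 := 15 * Real.exp (-(a / k))) (e2 := 15 * Real.exp (-(E0 / κ / k)))
    (f := fun x => psi m r x ^ s) (g := gfun q E0 r' s') ham (by positivity) (by linarith)
    (by positivity) (by positivity) (by positivity) (by positivity) hf
    (fun n hn => by
      rw [abs_pow]
      exact pow_le_one₀ (abs_nonneg _)
        (abs_psi_le_one hm0 (Nat.cast_nonneg n) (by linarith) hrn))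
    (fun n hn1 hn2 => by
      have h1 : |psi m r n| ≤ 1 / 3 := by
        refine abs_psi_le_third hm0 (Nat.cast_nonneg n) hn2.le hrn ?_
        have h2 : (3 * w) ^ 2 ≤ (r : ℝ) ^ 2 := pow_le_pow_left₀ (by positivity) hr1 2
        have h3 : (3 * w) ^ 2 * a ≤ (r : ℝ) ^ 2 * n :=
          mul_le_mul h2 hn1.le ha.le (by positivity)
        rw [hm]; linarith
      rw [← pow_add, abs_pow]
      refine (pow_le_pow_left₀ (abs_nonneg _) (h1.trans third_le_exp) _).trans (le_of_eq ?_)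
      rw [← Real.exp_nat_mul]
      congr 1
      push_cast; ring)
    hg (gfun_zero _ _ hr'n _)
    (fun n hn1 hn2 hn3 => abs_gfun_le hR hN (by linarith) hr'n (by rw [hE0]; linarith) hs'1 hn1
      hn3.le (by
        have : (n : ℝ) ≤ Fintype.card ι := by exact_mod_cast hn2
        linarith [Nat.cast_nonneg (α := ℝ) n]))
    hS (fun J => H1 J a ha.le)
    (fun I => by
      have := H2 I (E0 / κ) (by positivity)
      rwa [mul_div_cancel₀ _ hκ0.ne'] at this)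
  exact hcore.trans (err_le hs0 (by positivity) hqs hsrY hμs hE0s (hμs.trans hμ))

theorem step_undo (hE : Res E) {κ w a : ℝ} (hκ : 1 ≤ κ) (hw2 : 10 ^ 6 * κ ≤ w ^ 2) (ha : 0 < a)
    {r B q : ℕ} (hrn : 1 ≤ r) (hr2 : (r : ℝ) ≤ 4 * w) (hB : 384 * κ * B ≤ w ^ 2) (X P : A) :
    ‖X * P * low E (a * κ / w ^ 2)‖
      ≤ ‖X * (P * cnt E fun x => if x ≤ a then psi (w ^ 2 * a) r x ^ (B * q) else 0)‖
        * Real.exp (q / 6) := by
  have hκ0 : 0 < κ := by linarith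
  have hw0 : 0 < w ^ 2 := by linarith
  obtain ⟨m, hm⟩ : ∃ m : ℝ, m = w ^ 2 * a := ⟨_, rfl⟩
  rw [← hm]
  have ham : a < m := by rw [hm]; nlinarith
  have hm0 : 0 < m := by linarith
  have hσ : a * κ / w ^ 2 ≤ a := by
    rw [div_le_iff₀ hw0]; nlinarith
  have ht0 : 0 ≤ 32 * κ / w ^ 2 := by positivity
  have ht : 32 * κ / w ^ 2 ≤ 1 / 2 := by
    rw [div_le_iff₀ hw0]; linarith
  have hlow : ∀ n : ℕ, (n : ℝ) ≤ a * κ / w ^ 2 → 1 - 32 * κ / w ^ 2 ≤ psi m r n := by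
    intro n hn
    refine le_trans ?_ (psi_lower hm0 (Nat.cast_nonneg n) (by linarith) hrn)
    have h1 : (r : ℝ) ^ 2 ≤ (4 * w) ^ 2 := pow_le_pow_left₀ (by positivity) hr2 2
    have h2 : (n : ℝ) / m ≤ κ / w ^ 2 / w ^ 2 := by
      rw [div_le_iff₀ hm0]
      refine hn.trans (le_of_eq ?_)
      rw [hm]; field_simp
    have h3 : (r : ℝ) ^ 2 * (n / m) ≤ (4 * w) ^ 2 * (κ / w ^ 2 / w ^ 2) :=
      mul_le_mul h1 h2 (by positivity) (by positivity)
    have h4 : (4 * w) ^ 2 * (κ / w ^ 2 / w ^ 2) = 16 * κ / w ^ 2 := by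
      rw [mul_pow]; field_simp; ring
    have h5 : 32 * κ / w ^ 2 = 2 * (16 * κ / w ^ 2) := by ring
    linarith
  have hfac : low E (a * κ / w ^ 2) = (cnt E fun x => if x ≤ a then psi m r x ^ (B * q) else 0) *
      cnt E fun x => if x ≤ a * κ / w ^ 2 then (psi m r x ^ (B * q))⁻¹ else 0 := by
    rw [hE.cnt_mul, low]
    refine cnt_congr fun n _ => ?_
    by_cases h : (n : ℝ) ≤ a * κ / w ^ 2
    · have h1 : 0 < psi m r n := by linarith [hlow n h]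
      simp only [h, h.trans hσ, if_true]
      rw [mul_inv_cancel₀ (by positivity)]
    · simp [h]
  have hinv : ‖cnt E fun x => if x ≤ a * κ / w ^ 2 then (psi m r x ^ (B * q))⁻¹ else 0‖
      ≤ Real.exp (q / 6) := by
    refine hE.norm_cnt_le fun n _ => ?_
    split_ifs with h
    · refine (inv_pow_le_exp ht0 ht (hlow n h) (B * q)).trans (Real.exp_le_exp.2 ?_)
      have h6 : 2 * (32 * κ / w ^ 2) * ((B * q : ℕ) : ℝ) = (384 * κ * B) / w ^ 2 * (q / 6) := by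
        push_cast; ring
      rw [h6]
      have h7 : (384 * κ * B) / w ^ 2 ≤ 1 := (div_le_one hw0).2 hB
      exact mul_le_of_le_one_left (by positivity) h7
    · rw [abs_zero]; positivity
  rw [hfac, ← mul_assoc, mul_assoc X]
  exact norm_mul_le_mul le_rfl hinv

lemma final_num {x β q t : ℝ} (hx : 0 ≤ x) (h1 : x ≤ β * Real.exp (q / 6))
    (h2 : β ^ 3 ≤ 64 * Real.exp (-q)) (h3 : t ≤ (q + 1) / 6) : x ≤ 5 * Real.exp (-t) := by
  refine (pow_le_pow_iff_left₀ hx (by positivity) three_ne_zero).1 ?_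
  refine (pow_le_pow_left₀ hx h1 3).trans ?_
  rw [mul_pow, mul_pow, ← Real.exp_nat_mul, ← Real.exp_nat_mul]
  refine (mul_le_mul_of_nonneg_right h2 (by positivity)).trans ?_
  have y2 : Real.exp (-q) * Real.exp ((3 : ℕ) * (q / 6))
      ≤ Real.exp (1 / 2) * Real.exp ((3 : ℕ) * -t) := by
    rw [← Real.exp_add, ← Real.exp_add]
    refine Real.exp_le_exp.2 ?_
    push_cast
    linarith
  have y3 : Real.exp (1 / 2) ≤ 7 / 4 := by
    have h1 : Real.exp (1 / 2) ^ 2 = Real.exp 1 := by rw [← Real.exp_nat_mul]; norm_num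
    refine (abs_le_of_sq_le_sq' ?_ (by norm_num)).2
    rw [h1]; linarith [Real.exp_one_lt_d9]
  have y4 := Real.exp_pos ((3 : ℕ) * -t)
  have y5 := y2.trans (mul_le_mul_of_nonneg_right y3 y4.le)
  rw [mul_assoc]
  generalize Real.exp (-q) * Real.exp ((3 : ℕ) * (q / 6)) = u at *
  generalize Real.exp ((3 : ℕ) * -t) = v at *
  linarith

lemma one_le_five_exp {t : ℝ} (ht : t ≤ 1) : 1 ≤ 5 * Real.exp (-t) := by
  have h2 : Real.exp (-1) ≤ Real.exp (-t) := Real.exp_le_exp.2 (by linarith)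
  linarith [third_le_exp]

theorem step (hE : Res E) (hF : Res F) {κ k Y w : ℝ} (hY : 10 ^ 6 ≤ Y) (hκ : 1 ≤ κ) (hk : 1 ≤ k)
    (hN : 3 + 4 * (9 * (Fintype.card ι : ℝ)) ≤ Real.exp Y) (hw : κ ^ 2 * k * Y ^ 6 ≤ w)
    (H1 : ∀ J a, 0 ≤ a → ‖up E (κ * a) * sub F J * low E a‖
      ≤ 9 ^ J.card * (15 * Real.exp (-(a / k))))
    (H2 : ∀ I a, 0 ≤ a → ‖up F (κ * a) * sub E I * low F a‖
      ≤ 9 ^ I.card * (15 * Real.exp (-(a / k))))
    {a μ : ℝ} (ha : 0 < a) (hμ : μ ≤ a / k)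
    (hS : ‖up E (w ^ 2 * a) * F ∅ * low E a‖ ≤ 5 * Real.exp (-μ)) :
    ‖up E (κ * a) * F ∅ * low E (a * κ / w ^ 2)‖
      ≤ 5 * Real.exp (-(μ / (w ^ 2 * κ * k * Y ^ 7))) := by
  obtain ⟨hw1, hw2, r, r', B, hr1, hr2, hr'3, hB3, hB4, hDle, hB6⟩ := params hY hκ hk hw
  have hY1 : 1 ≤ Y := by linarith
  have hr3 : (1 : ℝ) ≤ r := by linarith
  have hB5 : (1 : ℝ) ≤ B := by
    have : 1 ≤ Y ^ 2 * r' := one_le_mul_of_one_le_of_one_le (one_le_pow₀ hY1) (by linarith)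
    linarith
  have hrY : 1 ≤ (r : ℝ) * Y := one_le_mul_of_one_le_of_one_le hr3 hY1
  obtain ⟨D, hD⟩ : ∃ D : ℝ, D = 4 * (r * Y) * B := ⟨_, rfl⟩
  rw [← hD] at hDle
  have hD1 : 1 ≤ D := by rw [hD]; nlinarith
  have hD0 : 0 < D := by linarith
  have hM0 : 0 < w ^ 2 * κ * k * Y ^ 7 := by linarith
  rcases lt_or_ge μ D with hμD | hμD
  · refine le_trans ?_ (one_le_five_exp (by rw [div_le_one hM0]; linarith))
    exact norm_mul_le_of_left (norm_mul_le_of_left (hE.norm_up_le _) (hF.norm_le _))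
      (hE.norm_low_le _)
  have hμ0 : 0 < μ := by linarith
  obtain ⟨q, hq1, hq2⟩ : ∃ q : ℕ, (q : ℝ) * D ≤ μ ∧ μ < (q + 1) * D := by
    refine ⟨⌊μ / D⌋₊, ?_, ?_⟩
    · rw [← le_div_iff₀ hD0]; exact Nat.floor_le (by positivity)
    · rw [← div_lt_iff₀ hD0]; exact Nat.lt_floor_add_one _
  have hq3 : (1 : ℝ) ≤ q := by
    have : (0 : ℝ) < q := by nlinarith
    have h : 0 < q := by exact_mod_cast this
    exact_mod_cast h
  have hμa : μ ≤ a := hμ.trans (div_le_self ha.le hk)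
  have hβ := step_beta hE hF hY1 hκ hk hN (by linarith) (by linarith) H1 H2 (by linarith) hμ hS
    hr1 hr3 hr'3 hB3 hB4 (by nlinarith) hq3 (by rw [← hD]; exact hq1)
  refine final_num (norm_nonneg _)
    (step_undo hE hκ hw2 ha (by exact_mod_cast hr3) hr2 hB6 _ _) hβ ?_
  rw [div_le_iff₀ hM0]
  have : (q + 1) / 6 * (6 * D) ≤ (q + 1) / 6 * (w ^ 2 * κ * k * Y ^ 7) :=
    mul_le_mul_of_nonneg_left hDle (by positivity)
  linarith

/-- The abstract localization theorem. -/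
theorem localization (hE : Res E) (hF : Res F) {κ k Y w : ℝ} (hY : 10 ^ 6 ≤ Y) (hκ : 1 ≤ κ)
    (hk : 1 ≤ k) (hN : 3 + 4 * (9 * (Fintype.card ι : ℝ)) ≤ Real.exp Y)
    (hw : κ ^ 2 * k * Y ^ 6 ≤ w)
    (H1 : ∀ J a, 0 ≤ a → ‖up E (κ * a) * sub F J * low E a‖
      ≤ 9 ^ J.card * (15 * Real.exp (-(a / k))))
    (H2 : ∀ I a, 0 ≤ a → ‖up F (κ * a) * sub E I * low F a‖
      ≤ 9 ^ I.card * (15 * Real.exp (-(a / k))))
    {T : ℕ} (hT : (Fintype.card ι : ℝ) < (w ^ 2 / κ) ^ T) {a : ℝ} (ha : 0 ≤ a) :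
    ‖up E (w ^ 2 * a) * F ∅ * low E a‖
      ≤ 5 * Real.exp (-(a / (k * (κ ^ 2 * k * Y ^ 7) ^ T))) := by
  obtain ⟨hw1, hw2, -⟩ := params hY hκ hk hw
  have hY1 : 1 ≤ Y := by linarith
  have hκ0 : 0 < κ := by linarith
  have hk0 : 0 < k := by linarith
  have hw0 : 0 < w := by linarith
  have hL : 1 ≤ κ ^ 2 * k * Y ^ 7 := one_le_mul_of_one_le_of_one_le
    (one_le_mul_of_one_le_of_one_le (one_le_pow₀ hκ) hk) (one_le_pow₀ hY1)
  have claim : ∀ j : ℕ, ∀ a : ℝ, 0 < a → (Fintype.card ι : ℝ) < w ^ 2 * a * (w ^ 2 / κ) ^ j →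
      ‖up E (w ^ 2 * a) * F ∅ * low E a‖
        ≤ 5 * Real.exp (-(a / (k * (κ ^ 2 * k * Y ^ 7) ^ j))) := by
    intro j
    induction j with
    | zero =>
      intro a _ h
      rw [Res.up_eq_zero (by simpa using h), zero_mul, zero_mul, norm_zero]
      positivity
    | succ j ih =>
      intro a ha h
      have ha' : 0 < a * (w ^ 2 / κ) := by positivity
      have h1 := ih (a * (w ^ 2 / κ)) ha' (by rw [pow_succ (w ^ 2 / κ)] at h; linarith)
      have hLj : 1 ≤ (κ ^ 2 * k * Y ^ 7) ^ j := one_le_pow₀ hL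
      have h2 := step hE hF hY hκ hk hN hw H1 H2 ha'
        (div_le_div_of_nonneg_left ha'.le hk0 (le_mul_of_one_le_right hk0.le hLj)) h1
      have e1 : κ * (a * (w ^ 2 / κ)) = w ^ 2 * a := by field_simp
      have e2 : a * (w ^ 2 / κ) * κ / w ^ 2 = a := by field_simp
      have e3 : a * (w ^ 2 / κ) / (k * (κ ^ 2 * k * Y ^ 7) ^ j) / (w ^ 2 * κ * k * Y ^ 7)
          = a / (k * (κ ^ 2 * k * Y ^ 7) ^ (j + 1)) := by
        rw [pow_succ (κ ^ 2 * k * Y ^ 7)]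
        field_simp
      rwa [e1, e2, e3] at h2
  rcases le_or_gt a 1 with h | h
  · refine le_trans ?_ (one_le_five_exp ?_)
    · exact norm_mul_le_of_left (norm_mul_le_of_left (hE.norm_up_le _) (hF.norm_le _))
        (hE.norm_low_le _)
    · exact (div_le_self ha (one_le_mul_of_one_le_of_one_le hk (one_le_pow₀ hL))).trans h
  · refine claim T a (by linarith) (hT.trans_le ?_)
    refine le_mul_of_one_le_left (by positivity) ?_
    exact one_le_mul_of_one_le_of_one_le (one_le_pow₀ hw1) h.le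

end Vale.Agent.P368
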